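/-
R318/Defs: definitions for row 318 (bin packing: unbounded configuration-LP gap, NP-hardness of every
additive constant).  Author: helper58.  FROZEN.

Overview.
* Model.  Three families of items indexed by the same finite type `J`: big items `G j` of size
  `3/5 - P j / D`, fillers `F j` of size `19/100 - H j / D`, items `I j` of size `21/100 + θ j / D`.
  A bin `G j, F f, I i` fits iff `θ i ≤ P j + H f`.  A packing in `|J| + c` bins gives a bijection
  `σ` (filler of each big item) with `#{θ ≥ x} ≤ #{P + H∘σ ≥ x} + 10 c` for all `x`.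
* Instance of a 3-CNF `φ` with `m` clauses and variables `< 3 m`: `4 m` cores (variables `κ < 3 m`,
  clauses `3 m + j`), each with three windows of length `ww`, `TT` strands at the start of each
  window, a tower between windows `0` and `1`, and one channel for each literal occurrence.
-/
import Mathlib
import Crest.Prelude.Def_BinPacking

set_option autoImplicit false

namespace Crest.Agent.R318

open Finset Crest.BinPacking

/-! ### 3-CNF formulas -/

/-- 3-CNF formulas over variables `V`; the literal `(v, s)` is true under `α` iff `α v = s`. -/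
abbrev CnfV (V : Type) : Type := List ((V × Bool) × (V × Bool) × (V × Bool))

/-- Satisfiability. -/
def SatV {V : Type} (φ : CnfV V) : Prop :=
  ∃ α : V → Bool, ∀ c ∈ φ, α c.1.1 = c.1.2 ∨ α c.2.1.1 = c.2.1.2 ∨ α c.2.2.1 = c.2.2.2

/-- Literal number `a < 3` of a clause. -/
def litAt (c : (ℕ × Bool) × (ℕ × Bool) × (ℕ × Bool)) (a : ℕ) : ℕ × Bool :=
  if a = 0 then c.1 else if a = 1 then c.2.1 else c.2.2

/-- Literal occurrence number `u = 3 j + a`. -/
def lit (φ : CnfV ℕ) (u : ℕ) : ℕ × Bool :=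
  litAt (φ.getD (u / 3) ((0, false), (0, false), (0, false))) (u % 3)

/-- Satisfiability in terms of occurrences. -/
def Sat (φ : CnfV ℕ) : Prop :=
  ∃ α : ℕ → Bool, ∀ j < φ.length, ∃ a < 3, α (lit φ (3 * j + a)).1 = (lit φ (3 * j + a)).2

/-- All variables are below `3 m`. -/
def Bdd (φ : CnfV ℕ) : Prop := ∀ u < 3 * φ.length, (lit φ u).1 < 3 * φ.length

/-! ### The three-family model -/

section Model
variable {J : Type}

/-- Item sizes. -/
def msz (P H θ : J → ℤ) (D : ℤ) : J ⊕ J ⊕ J → ℚ
  | .inl j => 3 / 5 - (P j : ℚ) / D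
  | .inr (.inl j) => 19 / 100 - (H j : ℚ) / D
  | .inr (.inr j) => 21 / 100 + (θ j : ℚ) / D

/-- The perturbations are at most `1/1000`. -/
def Small (P H θ : J → ℤ) (D : ℤ) : Prop :=
  0 < D ∧ ∀ j, 1000 * |P j| ≤ D ∧ 1000 * |H j| ≤ D ∧ 1000 * |θ j| ≤ D

/-- The number of values `≥ x`. -/
def cnt [Fintype J] (g : J → ℤ) (x : ℤ) : ℕ := (univ.filter fun j => x ≤ g j).card

end Model

/-! ### Towers -/

/-- A tower of depth `T`: windows `(pos i b, pos i b + len i]` on the two sides `b`, and one filler of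
length `len i` for each `i`.  However the fillers are placed at starting points of windows, some point
of depth `T` is not covered. -/
structure Tower (T : ℕ) where
  n : ℕ
  L : ℕ
  len : Fin n → ℕ
  pos : Fin n → Bool → ℕ
  L_pos : 0 < L
  len_le : ∀ i j b, len i ≤ pos j b
  fit : ∀ i j b, pos j b + len i < L
  depth : ∀ b x, (univ.filter fun i => pos i b < x ∧ x ≤ pos i b + len i).card ≤ T
  gap : ∀ pl : Fin n → Fin n × Bool, ∃ b x,
    T ≤ (univ.filter fun i => pos i b < x ∧ x ≤ pos i b + len i).card ∧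
    ∀ i, (pl i).2 = b → ¬ (pos (pl i).1 b < x ∧ x ≤ pos (pl i).1 b + len i)

/-! ### The instance of a formula -/

/-- Number of strands. -/
def TT (c : ℕ) : ℕ := 270 * c + 3
/-- Number of cores. -/
def NN (φ : CnfV ℕ) : ℕ := 4 * φ.length
/-- Number of channels (and of variable cores). -/
def CC (φ : CnfV ℕ) : ℕ := 3 * φ.length
/-- Number of stages of each side of a channel. -/
def MM (c : ℕ) (φ : CnfV ℕ) : ℕ := 10 * c + 3 * NN φ * (30 * c + 2 * TT c) + 1
/-- Base of the channel scales. -/
def KK (c : ℕ) (φ : CnfV ℕ) : ℕ := 2 * MM c φ + 3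
/-- Window length (`L` is the length of the tower area). -/
def ww (c L : ℕ) (φ : CnfV ℕ) : ℕ := L + KK c φ ^ CC φ
/-- Start of window `a < 3` of core `κ`. -/
def ZZ (w κ a : ℕ) : ℕ := w * (12 * 8 ^ κ + 2 * a)
/-- The label shift: labels `κ < NN` are cores, labels `NN + u` are channels. -/
def nu (c L : ℕ) (φ : CnfV ℕ) (l : ℕ) : ℕ :=
  if l < NN φ then 6 * ww c L φ * 8 ^ l else 6 * ww c L φ * 8 ^ NN φ + KK c φ ^ (l - NN φ)
/-- Number of windows of a core that its long strand fillers can cover. -/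
def ss (φ : CnfV ℕ) (κ : ℕ) : ℕ := if κ < CC φ then 1 else 2
/-- The window of side `b` of channel `u`: `false` the variable side, `true` the clause side. -/
def chW (φ : CnfV ℕ) (u : ℕ) (b : Bool) : ℕ × ℕ :=
  if b = true then (CC φ + u / 3, u % 3) else ((lit φ u).1, (lit φ u).2.toNat)
/-- The common denominator. -/
def DD (c L : ℕ) (φ : CnfV ℕ) : ℕ := 20000 * 8 ^ NN φ * ww c L φ

/-- Indices: strands `(κ, a, r)`, tower windows `(κ, i, b)`, channel stages `(u, b, m, r)`. -/
abbrev Idx (c n : ℕ) (φ : CnfV ℕ) : Type :=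
  (Fin (NN φ) × Fin 3 × Fin (TT c)) ⊕ (Fin (NN φ) × Fin n × Bool) ⊕
    (Fin (CC φ) × Bool × Fin (MM c φ) × Fin (TT c))

set_option synthInstance.maxSize 2048 in
instance instDecEqIdx (c n : ℕ) (φ : CnfV ℕ) : DecidableEq (Idx c n φ) := inferInstance

section Inst
variable {c : ℕ} (W : Tower (TT c)) (φ : CnfV ℕ)

/-- The label. -/
def lab : Idx c W.n φ → ℕ
  | .inl p => p.1
  | .inr (.inl p) => p.1
  | .inr (.inr p) => NN φ + p.1

/-- The window (core, number). -/
def wd : Idx c W.n φ → ℕ × ℕ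
  | .inl p => (p.1, p.2.1)
  | .inr (.inl p) => (p.1, p.2.2.toNat)
  | .inr (.inr p) => chW φ p.1 p.2.1

/-- The offset inside the window. -/
def off : Idx c W.n φ → ℕ
  | .inl _ => 0
  | .inr (.inl p) => W.pos p.2.1 p.2.2
  | .inr (.inr p) => W.L + 2 * KK c φ ^ (p.1 : ℕ) * (p.2.2.1 + 1)

/-- The length of the demand interval. -/
def dl : Idx c W.n φ → ℕ
  | .inl _ => 0
  | .inr (.inl p) => W.len p.2.1
  | .inr (.inr _) => 1

/-- The extra length of the filler. -/
def hl : Idx c W.n φ → ℕ
  | .inl p => if (p.2.1 : ℕ) < ss φ p.1 then ww c W.L φ else 0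
  | .inr (.inl p) => if p.2.2 = true then 0 else W.len p.2.1
  | .inr (.inr p) => if p.2.1 = true then 0 else 1

/-- The nominal position. -/
def yy (j : Idx c W.n φ) : ℕ := ZZ (ww c W.L φ) (wd W φ j).1 (wd W φ j).2 + off W φ j

/-- Value of the big item. -/
def PP (j : Idx c W.n φ) : ℤ := (yy W φ j : ℤ) + nu c W.L φ (lab W φ j)
/-- Value of the filler. -/
def HH (j : Idx c W.n φ) : ℤ := (hl W φ j : ℤ) - nu c W.L φ (lab W φ j)
/-- Value of the item. -/
def TH (j : Idx c W.n φ) : ℤ := (yy W φ j : ℤ) + dl W φ j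

/-- The sizes of the instance. -/
def sz : Idx c W.n φ ⊕ Idx c W.n φ ⊕ Idx c W.n φ → ℚ :=
  msz (PP W φ) (HH W φ) (TH W φ) (DD c W.L φ)

end Inst

end Crest.Agent.R318
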