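/-
R318/Basic: transport of packings along equivalences.  Author: helper58.
-/
import Crest.Agent.R318.Defs

set_option autoImplicit false

namespace Crest.Agent.R318

open Finset Crest.BinPacking

theorem packsInto_of_equiv {ι ι' : Type} [Fintype ι] [Fintype ι'] {a : ι → ℚ} {a' : ι' → ℚ}
    (e : ι ≃ ι') (h : ∀ i, a i = a' (e i)) {N : ℕ} (hp : PacksInto a' N) : PacksInto a N := by
  classical
  obtain ⟨g, hg⟩ := hp
  refine ⟨fun i => g (e i), fun b => ?_⟩
  refine le_trans (le_of_eq ?_) (hg b)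
  rw [Finset.sum_filter, Finset.sum_filter]
  exact Fintype.sum_equiv e _ _ fun i => by simp [h]

theorem packsInto_equiv {ι ι' : Type} [Fintype ι] [Fintype ι'] {a : ι → ℚ} {a' : ι' → ℚ}
    (e : ι ≃ ι') (h : ∀ i, a i = a' (e i)) (N : ℕ) : PacksInto a N ↔ PacksInto a' N :=
  ⟨packsInto_of_equiv e.symm fun i => by simp [h], packsInto_of_equiv e h⟩

end Crest.Agent.R318
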