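/-
R318/Cook: the Cook-Levin theorem for 3-CNF formulas over tuple-named variables.

RECIPE (helper58).  From `hA` take `V`, `p`, the machine `M`; as in `PT.of_polyTimeComputable` apply
`Converse.exists_gm_out M.tm` to get a `GM` `τ`, `q₀ A c₀ c₁ c cS` (here `A'` for the stack count): for all
`x w`, after any `t = c * T` steps with `T ≥ M.time.eval (|x| + |w|)` (outputs-in-time is monotone in `T`)
stack `c₁` is `[cS (o (V (x, w)))]`, and `cS (o true) ≠ cS (o false)`.  Let `n = |x|`, `P = p.eval n`,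
`t₀ = c * M.time.eval (n + P)`, `Hh = n + P + t₀ + 1`, `D` a constant bound (strict) on `q₀`, `A'`, `c₀`, `c₁`,
all entries of `τ`, the four input symbols.  `cell k h = (stacks.getD k []).getD h 0` evolves by itself:
for label `q`, `o q k = if k = stk q ∧ k < A' then op q else 0`; `o = 0` keep, `o = 1` new cell `h` = old cell
`h+1`, `o ≥ 2` new cell `0 = o - 1`, new cell `h+1` = old cell `h`; next label `nxt q (cell (stk q) 0)`
(the list of stacks keeps length `A'`).  Variables `(0,t,q,0)` = label, `(k+2,t,h,a)` = cell, `(1,i,0,0)` =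
`E i` (`i ≥ |w|`).  Clauses (repeat a literal to pad to three): for `t < t₀`, `q, k, a < D`, `h < Hh`:
`L t q ∧ C t (stk q) 0 a → L (t+1) (nxt q a)`; `L t q ∧ C t k h' a → C (t+1) k h a`;
`L t q → C (t+1) k 0 (o - 1)` for pushes; start: `L 0 q₀`, `C 0 k h 0` for `k ≠ c₀` or `h ≥ n + P`
(careful: if `c₀ ≥ A'` the input is not written at all; treat it through the same `if c₀ < A'`),
`C 0 c₀ h (sym x_h)` for `h < n`, for `i < P`: `E i → E (i+1)`, `E i → C 0 c₀ (n+i) 0`,
`E i ∨ C 0 c₀ (n+i) s₀ ∨ C 0 c₀ (n+i) s₁`; end: `¬ C t₀ c₁ 0 a` for `a < D`, `a ≠ cS (o true)`.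
Complete: `α` = the real run.  Sound: `|w|` = least `i` with `E i` (or `P`), bits read from `α`; by induction
on `t`, `α` makes the real label and the real cells with `h + t < Hh` true.
`PT`: `fun_prop` / `pt` with `List.range`, `flatMap`; `PT.polyEval`; `PB` of `p.eval` by `fun_prop`.
-/
import Crest.Agent.R318.Defs
import Crest.Agent.Lib.PolyTime.Converse

set_option autoImplicit false

namespace Crest.Agent.R318

open Crest.Agent.Lib.PolyTime Crest.Complexity

namespace Cook

open Crest.Agent.R290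

/-- The operation of label `q` on stack `k`. -/
def oo (τ : GM) (A q k : ℕ) : ℕ := if k = GM.stk τ q ∧ k < A then GM.op τ q else 0
/-- The old cell that determines the new cell `h`. -/
def src (τ : GM) (A q k h : ℕ) : ℕ :=
  if oo τ A q k = 0 then h else if oo τ A q k = 1 then h + 1 else h - 1
/-- The new value of cell `h`. -/
def val (τ : GM) (A q k h a : ℕ) : ℕ := if 2 ≤ oo τ A q k ∧ h = 0 then oo τ A q k - 1 else a
/-- Cell `h` of stack `k`. -/
def cel (st : List (List ℕ)) (k h : ℕ) : ℕ := (st.getD k []).getD h 0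

theorem step_len (τ : GM) (c : ℕ × List (List ℕ)) : (GM.step τ c).2.length = c.2.length := by
  unfold GM.step
  dsimp only
  split_ifs <;> simp

theorem step_lab (τ : GM) (c : ℕ × List (List ℕ)) :
    (GM.step τ c).1 = GM.nxt τ c.1 (cel c.2 (GM.stk τ c.1) 0) := by
  unfold GM.step cel
  dsimp only
  cases c.2.getD (GM.stk τ c.1) [] <;> rfl

theorem getD_set (st : List (List ℕ)) (k k' : ℕ) (l : List ℕ) :
    (st.set k' l).getD k [] = if k = k' ∧ k < st.length then l else st.getD k [] := by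
  rw [List.getD_eq_getElem?_getD, List.getD_eq_getElem?_getD, List.getElem?_set]
  by_cases hk : k' = k
  · subst hk
    by_cases h : k' < st.length <;> simp [h]
  · simp [hk, Ne.symm hk]

theorem step_cel (τ : GM) (c : ℕ × List (List ℕ)) (k h : ℕ) :
    cel (GM.step τ c).2 k h =
      val τ c.2.length c.1 k h (cel c.2 k (src τ c.2.length c.1 k h)) := by
  unfold GM.step cel val src oo
  dsimp only
  by_cases hk : k = GM.stk τ c.1 ∧ k < c.2.length
  · simp only [if_pos hk]
    by_cases h0 : GM.op τ c.1 = 0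
    · simp [h0]
    · by_cases h1 : GM.op τ c.1 = 1
      · rw [if_neg h0, if_pos h1, getD_set, if_pos hk, if_neg (by omega), if_neg h0, if_pos h1,
          ← hk.1]
        cases c.2.getD k [] <;> simp
      · rw [if_neg h0, if_neg h1, getD_set, if_pos hk, if_neg h0, if_neg h1, ← hk.1]
        cases h with
        | zero => rw [if_pos ⟨by omega, rfl⟩]; rfl
        | succ h => rw [if_neg (by omega)]; rfl
  · simp only [if_neg hk]
    rw [if_neg (show ¬(2 ≤ 0 ∧ h = 0) by omega), if_pos trivial]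
    split_ifs
    · rfl
    · rw [getD_set, if_neg hk]
    · rw [getD_set, if_neg hk]

/-- The run. -/
def run (τ : GM) (A q₀ c₀ : ℕ) (y : List ℕ) (t : ℕ) : ℕ × List (List ℕ) :=
  (GM.step τ)^[t] (q₀, (List.replicate A []).set c₀ y)

section run
variable (τ : GM) (A q₀ c₀ : ℕ) (y : List ℕ)

theorem run_len (t : ℕ) : (run τ A q₀ c₀ y t).2.length = A := by
  induction t with
  | zero => simp [run]
  | succ t ih => rw [run, Function.iterate_succ_apply', step_len]; exact ih

theorem run_lab (t : ℕ) : (run τ A q₀ c₀ y (t + 1)).1 = GM.nxt τ (run τ A q₀ c₀ y t).1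
    (cel (run τ A q₀ c₀ y t).2 (GM.stk τ (run τ A q₀ c₀ y t).1) 0) := by
  rw [run, Function.iterate_succ_apply', step_lab]; rfl

theorem run_cel (t k h : ℕ) : cel (run τ A q₀ c₀ y (t + 1)).2 k h =
    val τ A (run τ A q₀ c₀ y t).1 k h
      (cel (run τ A q₀ c₀ y t).2 k (src τ A (run τ A q₀ c₀ y t).1 k h)) := by
  have := step_cel τ (run τ A q₀ c₀ y t) k h
  rw [run_len] at this
  rw [← this, run, Function.iterate_succ_apply']; rfl

theorem run_cel_zero (k h : ℕ) :
    cel (run τ A q₀ c₀ y 0).2 k h = if k = c₀ ∧ k < A then y.getD h 0 else 0 := by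
  show ((((List.replicate A []).set c₀ y).getD k []).getD h 0) = _
  rw [getD_set, List.length_replicate]
  split_ifs
  · rfl
  · rw [List.getD_eq_getElem?_getD (l := List.replicate A []), List.getElem?_replicate]
    split_ifs <;> rfl

end run

/-- The tableau. -/
def tab (τ : GM) (A q₀ c₀ c₁ acc s₀ s₁ D : ℕ) (xs : List ℕ) (m t₀ : ℕ) (ts hs : List ℕ) :
    CnfV (ℕ × ℕ × ℕ × ℕ) :=
  [(((0, 0, q₀, 0), true), ((0, 0, q₀, 0), true), ((0, 0, q₀, 0), true))] ++
  (ts.flatMap fun t => (List.range D).flatMap fun q => (List.range D).map fun a =>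
    (((0, t, q, 0), false), ((GM.stk τ q + 2, t, 0, a), false),
      ((0, t + 1, GM.nxt τ q a, 0), true))) ++
  (ts.flatMap fun t => (List.range D).flatMap fun q => (List.range D).flatMap fun k =>
    hs.flatMap fun h => (List.range D).map fun a =>
      (((0, t, q, 0), false), ((k + 2, t, src τ A q k h, a), false),
        ((k + 2, t + 1, h, val τ A q k h a), true))) ++
  ((List.range D).flatMap fun k => hs.flatMap fun h =>
    if (k = c₀ ∧ k < A) ∧ xs.length ≤ h ∧ h < m then
      [(((1, h, 0, 0), true), ((k + 2, 0, h, s₀), true), ((k + 2, 0, h, s₁), true)),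
        (((1, h, 0, 0), false), ((1, h, 0, 0), false), ((1, h + 1, 0, 0), true)),
        (((1, h, 0, 0), false), ((1, h, 0, 0), false), ((k + 2, 0, h, 0), true))]
    else [(((k + 2, 0, h, if k = c₀ ∧ k < A then xs.getD h 0 else 0), true),
      ((k + 2, 0, h, if k = c₀ ∧ k < A then xs.getD h 0 else 0), true),
      ((k + 2, 0, h, if k = c₀ ∧ k < A then xs.getD h 0 else 0), true))]) ++
  ((List.range D).flatMap fun a => if a = acc then [] else
    [(((c₁ + 2, t₀, 0, a), false), ((c₁ + 2, t₀, 0, a), false), ((c₁ + 2, t₀, 0, a), false))])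

theorem pt_tab (τ : GM) (A q₀ c₀ c₁ acc s₀ s₁ D : ℕ) :
    PT fun z : List ℕ × ℕ × ℕ × List ℕ × List ℕ =>
      tab τ A q₀ c₀ c₁ acc s₀ s₁ D z.1 z.2.1 z.2.2.1 z.2.2.2.1 z.2.2.2.2 := by
  unfold tab src val oo GM.stk GM.op GM.nxt
  fun_prop

/-- The meaning of the tableau. -/
structure Tab (τ : GM) (A q₀ c₀ c₁ acc s₀ s₁ D : ℕ) (xs : List ℕ) (m t₀ H : ℕ)
    (α : ℕ × ℕ × ℕ × ℕ → Bool) : Prop where
  start : α (0, 0, q₀, 0) = true
  lab : ∀ t < t₀, ∀ q < D, ∀ a < D, α (0, t, q, 0) = true → α (GM.stk τ q + 2, t, 0, a) = true →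
    α (0, t + 1, GM.nxt τ q a, 0) = true
  cel : ∀ t < t₀, ∀ q < D, ∀ k < D, ∀ h < H, ∀ a < D, α (0, t, q, 0) = true →
    α (k + 2, t, src τ A q k h, a) = true → α (k + 2, t + 1, h, val τ A q k h a) = true
  wit : ∀ k < D, ∀ h < H, (k = c₀ ∧ k < A) ∧ xs.length ≤ h ∧ h < m →
    (α (1, h, 0, 0) = true ∨ α (k + 2, 0, h, s₀) = true ∨ α (k + 2, 0, h, s₁) = true) ∧
    (α (1, h, 0, 0) = true → α (1, h + 1, 0, 0) = true) ∧
    (α (1, h, 0, 0) = true → α (k + 2, 0, h, 0) = true)
  ini : ∀ k < D, ∀ h < H, ¬((k = c₀ ∧ k < A) ∧ xs.length ≤ h ∧ h < m) →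
    α (k + 2, 0, h, if k = c₀ ∧ k < A then xs.getD h 0 else 0) = true
  fin : ∀ a < D, a ≠ acc → α (c₁ + 2, t₀, 0, a) = false

theorem imp3 (a b c : Bool) : (a = false ∨ b = false ∨ c = true) ↔ (a = true → b = true → c = true) := by
  cases a <;> cases b <;> simp

theorem forall_mem_ite {β : Type} (c : Prop) [Decidable c] (l l' : List β) (p : β → Prop) :
    (∀ x ∈ (if c then l else l'), p x) ↔ (c → ∀ x ∈ l, p x) ∧ (¬c → ∀ x ∈ l', p x) := by
  by_cases h : c <;> simp [h]

theorem sat_tab (τ : GM) (A q₀ c₀ c₁ acc s₀ s₁ D : ℕ) (xs : List ℕ) (m t₀ H : ℕ) :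
    SatV (tab τ A q₀ c₀ c₁ acc s₀ s₁ D xs m t₀ (List.range t₀) (List.range H)) ↔
      ∃ α, Tab τ A q₀ c₀ c₁ acc s₀ s₁ D xs m t₀ H α := by
  refine exists_congr fun α => ?_
  unfold tab
  simp only [List.forall_mem_append, List.forall_mem_flatMap, List.forall_mem_map, List.mem_range,
    forall_mem_ite, List.forall_mem_cons, List.not_mem_nil, imp3, or_self, IsEmpty.forall_iff,
    implies_true, and_true, true_and]
  constructor
  · rintro ⟨⟨⟨⟨h1, h2⟩, h3⟩, h4⟩, h5⟩
    refine ⟨h1, h2, h3, fun k hk h hh hc => ?_, fun k hk h hh => (h4 k hk h hh).2, h5⟩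
    obtain ⟨a, b, c⟩ := (h4 k hk h hh).1 hc
    exact ⟨a, fun e => b e e, fun e => c e e⟩
  · intro T
    refine ⟨⟨⟨⟨T.start, T.lab⟩, T.cel⟩, fun k hk h hh => ⟨fun hc => ?_, T.ini k hk h hh⟩⟩, T.fin⟩
    obtain ⟨a, b, c⟩ := T.wit k hk h hh hc
    exact ⟨a, fun e _ => b e, fun e _ => c e⟩

theorem complete (τ : GM) (A q₀ c₀ c₁ acc D : ℕ) (s : Bool → ℕ) (xs : List ℕ) (P t₀ H : ℕ)
    (w : List Bool) (hw : w.length ≤ P)
    (hacc : cel (run τ A q₀ c₀ (xs ++ w.map s) t₀).2 c₁ 0 = acc) :
    ∃ α, Tab τ A q₀ c₀ c₁ acc (s false) (s true) D xs (xs.length + P) t₀ H α := by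
  let α : ℕ × ℕ × ℕ × ℕ → Bool := fun v =>
    if v.1 = 0 then decide ((run τ A q₀ c₀ (xs ++ w.map s) v.2.1).1 = v.2.2.1)
    else if v.1 = 1 then decide (xs.length + w.length ≤ v.2.1)
    else decide (cel (run τ A q₀ c₀ (xs ++ w.map s) v.2.1).2 (v.1 - 2) v.2.2.1 = v.2.2.2)
  have e0 : ∀ t q a, α (0, t, q, a) = true ↔ (run τ A q₀ c₀ (xs ++ w.map s) t).1 = q := by
    simp [α]
  have e1 : ∀ h b a, α (1, h, b, a) = true ↔ xs.length + w.length ≤ h := by simp [α]
  have e2 : ∀ k t h a, α (k + 2, t, h, a) = true ↔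
      cel (run τ A q₀ c₀ (xs ++ w.map s) t).2 k h = a := by simp [α]
  refine ⟨α, (e0 ..).2 rfl, fun t _ q _ a _ => ?_, fun t _ q _ k _ h _ a _ => ?_,
    fun k _ h _ hc => ?_, fun k _ h _ hc => ?_, fun a _ ha => ?_⟩
  · rw [e0, e0, e2, run_lab]
    rintro rfl rfl
    rfl
  · rw [e0, e2, e2, run_cel]
    rintro rfl rfl
    rfl
  · obtain ⟨hk, h1, h2⟩ := hc
    simp only [e1, e2, run_cel_zero, if_pos hk]
    rw [List.getD_append_right _ _ _ _ h1]
    refine ⟨?_, by omega, fun h3 => List.getD_eq_default _ _ (by simp; omega)⟩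
    by_cases h3 : xs.length + w.length ≤ h
    · exact Or.inl h3
    · right
      rw [List.getD_eq_getElem _ _ (by simp; omega), List.getElem_map]
      cases w[h - xs.length]'(by omega) <;> simp
  · rw [e2, run_cel_zero]
    split_ifs with hk
    · by_cases h1 : h < xs.length
      · exact List.getD_append _ _ _ _ h1
      · have h2 : xs.length + P ≤ h := by
          by_contra h3
          exact hc ⟨hk, by omega, by omega⟩
        rw [List.getD_eq_default _ _ (by simp; omega), List.getD_eq_default _ _ (by omega)]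
    · rfl
  · rw [← Bool.not_eq_true, e2, hacc]
    exact ha.symm

theorem run_lt {τ : GM} {D : ℕ} (A c₀ : ℕ) {q₀ : ℕ} {y : List ℕ} (h0 : 0 < D) (hq : q₀ < D)
    (hop : ∀ q, GM.op τ q < D) (hnxt : ∀ q a, GM.nxt τ q a < D) (hy : ∀ a ∈ y, a < D) (t : ℕ) :
    (run τ A q₀ c₀ y t).1 < D ∧ ∀ k h, cel (run τ A q₀ c₀ y t).2 k h < D := by
  induction t with
  | zero =>
    refine ⟨hq, fun k h => ?_⟩
    rw [run_cel_zero]
    split_ifs
    · by_cases h1 : h < y.length
      · rw [List.getD_eq_getElem _ _ h1]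
        exact hy _ (List.getElem_mem h1)
      · rwa [List.getD_eq_default _ _ (by omega)]
    · exact h0
  | succ t ih =>
    refine ⟨run_lab .. ▸ hnxt _ _, fun k h => ?_⟩
    rw [run_cel, val, oo]
    have := hop (run τ A q₀ c₀ y t).1
    split_ifs
    · omega
    · exact ih.2 _ _
    · omega
    · exact ih.2 _ _

theorem sound {τ : GM} {A q₀ c₀ c₁ acc D : ℕ} {s : Bool → ℕ} {xs : List ℕ} {P t₀ : ℕ}
    (hq : q₀ < D) (hc₁ : c₁ < D) (hstk : ∀ q, GM.stk τ q < D) (hop : ∀ q, GM.op τ q < D)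
    (hnxt : ∀ q a, GM.nxt τ q a < D) (hxs : ∀ a ∈ xs, a < D) (hs : ∀ b, s b < D)
    {α : ℕ × ℕ × ℕ × ℕ → Bool}
    (T : Tab τ A q₀ c₀ c₁ acc (s false) (s true) D xs (xs.length + P) t₀ (t₀ + 1) α) :
    ∃ w : List Bool, w.length ≤ P ∧ cel (run τ A q₀ c₀ (xs ++ w.map s) t₀).2 c₁ 0 = acc := by
  have hex : ∃ i, P ≤ i ∨ α (1, xs.length + i, 0, 0) = true := ⟨P, Or.inl le_rfl⟩
  obtain ⟨l, hlP, hl, hmin⟩ : ∃ l, l ≤ P ∧ (P ≤ l ∨ α (1, xs.length + l, 0, 0) = true) ∧
      ∀ i < l, ¬α (1, xs.length + i, 0, 0) = true :=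
    ⟨Nat.find hex, Nat.find_min' hex (Or.inl le_rfl), Nat.find_spec hex,
      fun i hi h => Nat.find_min hex hi (Or.inr h)⟩
  let w : List Bool := (List.range l).map fun i => α (c₀ + 2, 0, xs.length + i, s true)
  have hwl : w.length = l := by simp [w]
  refine ⟨w, hwl ▸ hlP, ?_⟩
  have hlt := run_lt (τ := τ) A c₀ (y := xs ++ w.map s) (by omega) hq hop hnxt (by
    intro a ha
    rcases List.mem_append.1 ha with ha | ha
    · exact hxs a ha
    · obtain ⟨b, -, rfl⟩ := List.mem_map.1 ha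
      exact hs b)
  have key : ∀ t ≤ t₀, α (0, t, (run τ A q₀ c₀ (xs ++ w.map s) t).1, 0) = true ∧
      ∀ k < D, ∀ h, h + t ≤ t₀ →
        α (k + 2, t, h, cel (run τ A q₀ c₀ (xs ++ w.map s) t).2 k h) = true := by
    intro t
    induction t with
    | zero =>
      refine fun _ => ⟨T.start, fun k hk h hh => ?_⟩
      rw [run_cel_zero]
      by_cases hc : (k = c₀ ∧ k < A) ∧ xs.length ≤ h ∧ h < xs.length + P
      · obtain ⟨hkA, h1, h2⟩ := hc
        obtain ⟨i, rfl⟩ := Nat.exists_eq_add_of_le h1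
        rw [if_pos hkA, List.getD_append_right _ _ _ _ h1, Nat.add_sub_cancel_left]
        have hw := T.wit k hk _ (by omega) ⟨hkA, h1, h2⟩
        by_cases hi : i < l
        · rw [List.getD_eq_getElem _ _ (by simpa [hwl] using hi)]
          simp only [w, List.getElem_map, List.getElem_range, ← hkA.1]
          cases e : α (k + 2, 0, xs.length + i, s true)
          · exact (hw.1.resolve_left (hmin i hi)).resolve_right (by simp [e])
          · exact e
        · rw [List.getD_eq_default _ _ (by simpa [hwl] using hi)]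
          refine hw.2.2 ?_
          have : ∀ j, l ≤ j → j ≤ i → α (1, xs.length + j, 0, 0) = true := by
            intro j hj
            induction j, hj using Nat.le_induction with
            | base => exact fun _ => hl.resolve_left (by omega)
            | succ j hj ih =>
              exact fun hj' => (T.wit k hk (xs.length + j) (by omega)
                ⟨hkA, by omega, by omega⟩).2.1 (ih (by omega))
          exact this i (by omega) le_rfl
      · have := T.ini k hk h (by omega) hc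
        split_ifs at this ⊢ with hkA
        · by_cases h1 : h < xs.length
          · rwa [List.getD_append _ _ _ _ h1]
          · have h2 : xs.length + P ≤ h := by
              by_contra h3
              exact hc ⟨hkA, by omega, by omega⟩
            rw [List.getD_eq_default _ _ (by simp; omega)]
            rwa [List.getD_eq_default _ _ (by omega)] at this
        · exact this
    | succ t ih =>
      intro ht
      obtain ⟨i1, i2⟩ := ih (by omega)
      refine ⟨?_, fun k hk h hh => ?_⟩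
      · rw [run_lab]
        exact T.lab t ht _ (hlt t).1 _ ((hlt t).2 _ _) i1 (i2 _ (hstk _) 0 (by omega))
      · rw [run_cel]
        refine T.cel t ht _ (hlt t).1 k hk h (by omega) _ ((hlt t).2 _ _) i1 (i2 k hk _ ?_)
        unfold src
        split_ifs <;> omega
  by_contra hne
  have h1 := (key t₀ le_rfl).2 c₁ hc₁ 0 (by omega)
  rw [T.fin _ ((hlt t₀).2 _ _) hne] at h1
  cases h1

theorem getD_le_sum (l : List ℕ) (i : ℕ) : l.getD i 0 ≤ l.sum := by
  by_cases h : i < l.length
  · rw [List.getD_eq_getElem _ _ h]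
    exact List.single_le_sum (fun _ _ => Nat.zero_le _) _ (List.getElem_mem h)
  · rw [List.getD_eq_default _ _ (by omega)]
    exact Nat.zero_le _

theorem exists_bound (τ : GM) : ∃ B, (∀ q, GM.stk τ q ≤ B) ∧ (∀ q, GM.op τ q ≤ B) ∧
    ∀ q a, GM.nxt τ q a ≤ B := by
  refine ⟨τ.1.sum + τ.2.1.sum + (τ.2.2.map List.sum).sum, fun q => ?_, fun q => ?_, fun q a => ?_⟩
  · have := getD_le_sum τ.1 q
    unfold GM.stk; omega
  · have := getD_le_sum τ.2.1 q
    unfold GM.op; omega
  · have h1 := getD_le_sum (τ.2.2.getD q []) a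
    have h2 := getD_le_sum (τ.2.2.map List.sum) q
    have h3 : (τ.2.2.map List.sum).getD q 0 = (τ.2.2.getD q []).sum :=
      List.getD_map τ.2.2 [] List.sum
    unfold GM.nxt; omega

theorem eval_le (p : Polynomial ℕ) {a b : ℕ} (h : a ≤ b) : p.eval a ≤ p.eval b := by
  induction p using Polynomial.induction_on' with
  | add p q hp hq => simpa using Nat.add_le_add hp hq
  | monomial n c => simpa using Nat.mul_le_mul_left c (Nat.pow_le_pow_left h n)

end Cook

open Cook Crest.Agent.Lib.PolyTime.Converse Crest.Agent.R290 in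
theorem cook_tab {A : Set (List Bool)} (hA : InNP A) :
    ∃ F : List Bool → CnfV (ℕ × ℕ × ℕ × ℕ), PT F ∧ ∀ x, x ∈ A ↔ SatV (F x) := by
  obtain ⟨V, p, ⟨M⟩, hA⟩ := hA
  let i : Bool ⊕ Bool → Σ k, M.tm.Γ k := fun g => ⟨M.tm.k₀, M.inputAlphabet.invFun g⟩
  let o : Bool → Σ k, M.tm.Γ k := fun g => ⟨M.tm.k₁, M.outputAlphabet.invFun g⟩
  obtain ⟨τ, q₀, A', c₀, c₁, c, cS, hinj, h⟩ := exists_gm_out M.tm
    ((Set.finite_range i).union (Set.finite_range o))
  have hoinj : ∀ g g', cS (o g) = cS (o g') → g = g' := fun g g' e => by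
    have := hinj (Or.inr ⟨g, rfl⟩) (Or.inr ⟨g', rfl⟩) e
    simp only [o, Sigma.mk.injEq, heq_eq_eq, true_and] at this
    exact M.outputAlphabet.symm.injective this
  obtain ⟨B, hB1, hB2, hB3⟩ := exists_bound τ
  let r : Bool → ℕ := fun b => cS (i (.inl b))
  let s : Bool → ℕ := fun b => cS (i (.inr b))
  obtain ⟨D, hD⟩ : ∃ D, D = B + q₀ + c₁ + r false + r true + s false + s true + 1 := ⟨_, rfl⟩
  let t₀ : List Bool → ℕ := fun x => c * M.time.eval (x.length + p.eval x.length)
  have hrun : ∀ x w : List Bool, w.length ≤ p.eval x.length →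
      cel (run τ A' q₀ c₀ (x.map r ++ w.map s) (t₀ x)).2 c₁ 0 = cS (o (V (x, w))) := by
    intro x w hw
    have e : pairEnc (x, w) = x.map Sum.inl ++ w.map Sum.inr := rfl
    have h0 := M.outputsFun (x, w)
    have h1 := h _ _ (M.time.eval (x.length + p.eval x.length)) (fun s hs => by
      obtain ⟨g, -, rfl⟩ := List.mem_map.1 hs
      exact Or.inl ⟨g, rfl⟩) ⟨⟨h0.toEvalsTo, h0.steps_le_m.trans (eval_le _ (by
        rw [e]; simpa using hw))⟩⟩
    rw [e, List.map_append, List.map_append, List.map_map, List.map_map, List.map_map,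
      List.map_map] at h1
    exact congrArg (fun l => l.getD 0 0) h1
  have hr : PT r := PT.of_finite _
  have hlen : PT fun x : List Bool => x.length := by fun_prop
  have hP : PT fun x : List Bool => x.length + p.eval x.length := hlen.nat_add (hlen.polyEval p)
  have ht : PT t₀ := (PT.const c).nat_mul (hP.polyEval _)
  have ht' : PB t₀ := by fun_prop
  refine ⟨fun x => tab τ A' q₀ c₀ c₁ (cS (o true)) (s false) (s true) D (x.map r)
    ((x.map r).length + p.eval x.length) (t₀ x) (List.range (t₀ x)) (List.range (t₀ x + 1)),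
    ?_, fun x => ?_⟩
  · have hx : PT fun x : List Bool => x.map r := by fun_prop
    exact (pt_tab τ A' q₀ c₀ c₁ (cS (o true)) (s false) (s true) D).comp
      (hx.prodMk ((hx.length.nat_add (hlen.polyEval p)).prodMk (ht.prodMk
        ((ht.range ht').prodMk ((ht.nat_add (PT.const 1)).range (ht'.add (PB.const 1)))))))
  · rw [hA, sat_tab]
    constructor
    · rintro ⟨w, hw, hV⟩
      exact complete τ A' q₀ c₀ c₁ _ D s _ _ _ _ w hw (by rw [hrun x w hw, hV])
    · rintro ⟨α, T⟩
      obtain ⟨w, hw, hV⟩ := sound (by omega) (by omega) (fun q => by have := hB1 q; omega)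
        (fun q => by have := hB2 q; omega) (fun q a => by have := hB3 q a; omega)
        (fun a ha => by
          obtain ⟨b, -, rfl⟩ := List.mem_map.1 ha
          cases b <;> omega) (fun b => by cases b <;> omega) T
      exact ⟨w, hw, hoinj _ _ (by rw [← hrun x w hw, hV])⟩

end Crest.Agent.R318
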