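/-
R318/Geo: elementary geometry of the instance.  Author: helper58.
-/
import Crest.Agent.R318.Defs

set_option autoImplicit false

namespace Crest.Agent.R318

open Finset

theorem MM_pos (c : ℕ) (φ : CnfV ℕ) : 0 < MM c φ := by unfold MM; omega

theorem KK_pow_pos (c : ℕ) (φ : CnfV ℕ) (u : ℕ) : 0 < KK c φ ^ u :=
  pow_pos (by unfold KK; omega) _

theorem KK_pow_succ (c : ℕ) (φ : CnfV ℕ) {u u' : ℕ} (h : u < u') :
    (2 * MM c φ + 3) * KK c φ ^ u ≤ KK c φ ^ u' := by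
  have h1 : KK c φ ^ (u + 1) ≤ KK c φ ^ u' := Nat.pow_le_pow_right (by unfold KK; omega) h
  rw [pow_succ, mul_comm] at h1
  exact h1

theorem L_lt_ww (c L : ℕ) (φ : CnfV ℕ) : L < ww c L φ := by
  have := KK_pow_pos c φ (CC φ)
  unfold ww; omega

theorem CC_le_NN (φ : CnfV ℕ) : CC φ ≤ NN φ := by unfold CC NN; omega

/-- Windows are far apart. -/
theorem wd_eq_of_near {w κ a κ' a' : ℕ} (ha : a < 3) (ha' : a' < 3)
    (h1 : ZZ w κ a < ZZ w κ' a' + 2 * w) (h2 : ZZ w κ' a' < ZZ w κ a + 2 * w) :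
    κ = κ' ∧ a = a' := by
  unfold ZZ at h1 h2
  have e1 : w * (12 * 8 ^ κ' + 2 * a') + 2 * w = w * (12 * 8 ^ κ' + 2 * a' + 2) := by ring
  have e2 : w * (12 * 8 ^ κ + 2 * a) + 2 * w = w * (12 * 8 ^ κ + 2 * a + 2) := by ring
  rw [e1] at h1
  rw [e2] at h2
  have h3 := Nat.lt_of_mul_lt_mul_left h1
  have h4 := Nat.lt_of_mul_lt_mul_left h2
  have p1 : 1 ≤ 8 ^ κ := Nat.one_le_pow _ _ (by norm_num)
  have p2 : 1 ≤ 8 ^ κ' := Nat.one_le_pow _ _ (by norm_num)
  rcases lt_trichotomy κ κ' with h | h | h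
  · have : 8 ^ (κ + 1) ≤ 8 ^ κ' := Nat.pow_le_pow_right (by norm_num) h
    rw [pow_succ] at this
    omega
  · subst h
    omega
  · have : 8 ^ (κ' + 1) ≤ 8 ^ κ := Nat.pow_le_pow_right (by norm_num) h
    rw [pow_succ] at this
    omega

/-- Stages are far apart, on the scale of the left one. -/
theorem stage_eq {c : ℕ} {φ : CnfV ℕ} {u u' m m' : ℕ} (hm : m < MM c φ) (hm' : m' < MM c φ)
    (h1 : 2 * KK c φ ^ u' * (m' + 1) ≤ 2 * KK c φ ^ u * (m + 1))
    (h2 : 2 * KK c φ ^ u * (m + 1) + 1 ≤ 2 * KK c φ ^ u' * (m' + 1) + KK c φ ^ u') :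
    u = u' ∧ m = m' := by
  have p1 := KK_pow_pos c φ u
  have p2 := KK_pow_pos c φ u'
  rcases lt_trichotomy u u' with h | h | h
  · have := KK_pow_succ c φ h
    exfalso
    nlinarith
  · subst h
    refine ⟨rfl, ?_⟩
    have a1 : m' + 1 ≤ m + 1 := Nat.le_of_mul_le_mul_left h1 (by omega)
    by_contra hne
    have a2 : m' + 2 ≤ m + 1 := by omega
    nlinarith
  · have := KK_pow_succ c φ h
    exfalso
    nlinarith

theorem chW_lt {φ : CnfV ℕ} (hb : Bdd φ) {u : ℕ} (hu : u < CC φ) (b : Bool) :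
    (chW φ u b).1 < NN φ ∧ (chW φ u b).2 < 3 := by
  have h1 := hb u hu
  unfold chW CC NN at *
  cases b
  · have : (lit φ u).2.toNat ≤ 1 := Bool.toNat_le _
    simp only [Bool.false_eq_true, if_false]
    omega
  · simp only [if_true]
    omega

/-- The two sides of the channels lie in different kinds of cores. -/
theorem chW_fst_lt_iff {φ : CnfV ℕ} (hb : Bdd φ) {u : ℕ} (hu : u < CC φ) (b : Bool) :
    (chW φ u b).1 < CC φ ↔ b = false := by
  have h1 := hb u hu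
  unfold chW CC at *
  cases b <;> simp [h1]

variable {c : ℕ} (W : Tower (TT c)) {φ : CnfV ℕ}

theorem wd_lt (hb : Bdd φ) (j : Idx c W.n φ) : (wd W φ j).1 < NN φ ∧ (wd W φ j).2 < 3 := by
  rcases j with p | p | p
  · exact ⟨p.1.2, p.2.1.2⟩
  · have : p.2.2.toNat ≤ 1 := Bool.toNat_le _
    exact ⟨p.1.2, by simp only [wd]; omega⟩
  · exact chW_lt hb p.1.2 _

/-- The reach of a channel stage stays inside the window. -/
theorem stage_reach (L : ℕ) {u m : ℕ} (hu : u < CC φ) (hm : m < MM c φ) :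
    L + 2 * KK c φ ^ u * (m + 1) + KK c φ ^ u < ww c L φ := by
  have := KK_pow_succ c φ hu
  have p1 := KK_pow_pos c φ u
  unfold ww
  nlinarith

theorem off_add_dl_lt (j : Idx c W.n φ) : off W φ j + dl W φ j < ww c W.L φ := by
  have h0 := L_lt_ww c W.L φ
  rcases j with p | p | p
  · simp only [off, dl]; omega
  · have := W.fit p.2.1 p.2.1 p.2.2
    simp only [off, dl]; omega
  · have := stage_reach (c := c) W.L p.1.2 p.2.2.1.2
    have p1 := KK_pow_pos c φ p.1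
    simp only [off, dl]; omega

theorem hl_le (j : Idx c W.n φ) : hl W φ j ≤ ww c W.L φ := by
  have h0 := L_lt_ww c W.L φ
  rcases j with p | p | p
  · simp only [hl]; split_ifs <;> omega
  · have := W.fit p.2.1 p.2.1 p.2.2
    simp only [hl]; split_ifs <;> omega
  · simp only [hl]; split_ifs <;> omega

theorem lab_lt (j : Idx c W.n φ) : lab W φ j < NN φ + CC φ := by
  rcases j with p | p | p
  · have := p.1.2; simp only [lab]; omega
  · have := p.1.2; simp only [lab]; omega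
  · have := p.1.2; simp only [lab]; omega

theorem nu_le (L : ℕ) {l : ℕ} (hl : l < NN φ + CC φ) :
    nu c L φ l ≤ 7 * ww c L φ * 8 ^ NN φ := by
  have p0 : 1 ≤ 8 ^ NN φ := Nat.one_le_pow _ _ (by norm_num)
  unfold nu
  split_ifs with h
  · have : 8 ^ l ≤ 8 ^ NN φ := Nat.pow_le_pow_right (by norm_num) h.le
    nlinarith
  · have h1 : KK c φ ^ (l - NN φ) ≤ KK c φ ^ CC φ :=
      Nat.pow_le_pow_right (by unfold KK; omega) (by omega)
    have h2 : KK c φ ^ CC φ ≤ ww c L φ := by unfold ww; omega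
    nlinarith

theorem yy_add_le (hb : Bdd φ) (j : Idx c W.n φ) :
    yy W φ j + dl W φ j ≤ 7 * ww c W.L φ * 8 ^ NN φ := by
  obtain ⟨h1, h2⟩ := wd_lt W hb j
  have h3 := off_add_dl_lt W j
  have h4 : 8 ^ ((wd W φ j).1 + 1) ≤ 8 ^ NN φ := Nat.pow_le_pow_right (by norm_num) h1
  have p0 : 1 ≤ 8 ^ (wd W φ j).1 := Nat.one_le_pow _ _ (by norm_num)
  rw [pow_succ] at h4
  have h5 : 12 * 8 ^ (wd W φ j).1 + 2 * (wd W φ j).2 + 1 ≤ 7 * 8 ^ NN φ := by omega
  have h6 := Nat.mul_le_mul_left (ww c W.L φ) h5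
  unfold yy ZZ
  nlinarith

theorem small (hb : Bdd φ) : Small (PP W φ) (HH W φ) (TH W φ) (DD c W.L φ) := by
  have h0 := L_lt_ww c W.L φ
  have p0 : 1 ≤ 8 ^ NN φ := Nat.one_le_pow _ _ (by norm_num)
  have hw : ww c W.L φ ≤ ww c W.L φ * 8 ^ NN φ := Nat.le_mul_of_pos_right _ p0
  have hD : (DD c W.L φ : ℤ) = 20000 * ((ww c W.L φ * 8 ^ NN φ : ℕ) : ℤ) := by
    unfold DD; push_cast; ring
  refine ⟨by rw [hD]; have : 0 < ww c W.L φ * 8 ^ NN φ := by omega
             positivity, fun j => ?_⟩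
  have h1 := yy_add_le W hb j
  have h2 := nu_le (c := c) W.L (lab_lt W j)
  have h3 := hl_le W j
  rw [mul_assoc] at h1 h2
  rw [hD]
  generalize ww c W.L φ * 8 ^ NN φ = R at *
  unfold PP HH TH
  refine ⟨?_, ?_, ?_⟩
  · rw [abs_of_nonneg (by positivity)]; omega
  · have : |(hl W φ j : ℤ) - nu c W.L φ (lab W φ j)| ≤ 7 * R := abs_le.2 ⟨by omega, by omega⟩
    omega
  · rw [abs_of_nonneg (by positivity)]; omega

end Crest.Agent.R318
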