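/-
R318/Model: soundness of the three-family model.

RECIPE (helper58).  Sizes: big in `[0.599, 0.601]`, fillers in `[0.189, 0.191]`, items in `[0.209, 0.211]`.
In a packing `g` into `|J| + c` bins the big items are in distinct bins; a bin with a big item holds at most
two small items and not two items `I`; each of the `c` other bins holds at most 5 small items.  Call `j`
regular if the bin of `G j` holds a filler `F f` and an item `I i` (then `θ i ≤ P j + H f`, `f`, `i` are
unique and injective in `j`).  With `a` items and `b` fillers outside bins of big items (`a + b ≤ 5c`): at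
least `|J| - a` big bins hold an `I`; the at most `a` others hold at most `2a` fillers, so at least
`|J| - b - 2a ≥ |J| - 10 c` indices are regular.  Extend `j ↦ f` to a bijection (`Equiv.extendSubtype` or
`Finset.exists_equiv_extend_of_card_eq`); items `≥ x` are matched to regular `j` with slot `≥ x`, except
at most `10 c`.
-/
import Crest.Agent.R318.Defs

set_option autoImplicit false

namespace Crest.Agent.R318

open Finset Crest.BinPacking

theorem ms_abs {D z : ℤ} (hD : 0 < D) (h : 1000 * |z| ≤ D) : |(z : ℚ) / D| ≤ 1 / 1000 := by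
  have h1 : (0 : ℚ) < D := Int.cast_pos.2 hD
  have h2 : (1000 : ℚ) * |(z : ℚ)| ≤ D := by exact_mod_cast h
  rw [abs_div, abs_of_pos h1, div_le_iff₀ h1]
  linarith

theorem ms_sum_ge {J B : Type} [Fintype J] [DecidableEq B] (g : J → B) (b : B) (a : J → ℚ) {r : ℚ}
    (h : ∀ j, r ≤ a j) :
    ((univ.filter fun j => g j = b).card : ℚ) * r ≤ ∑ j, if g j = b then a j else 0 := by
  rw [← Finset.sum_filter, ← nsmul_eq_mul]
  exact Finset.card_nsmul_le_sum _ _ _ fun j _ => h j

theorem ms_fiber {J : Type} [Fintype J] {N : ℕ} (g : J → Fin N) (s : Finset J) :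
    ∑ b, (s.filter fun j => g j = b).card = s.card :=
  (Finset.card_eq_sum_card_fiberwise fun _ _ => Finset.mem_coe.2 (Finset.mem_univ _)).symm

theorem ms_bin {d e f h : ℕ} (h1 : 599 * d + 189 * e + 209 * f ≤ 1000)
    (h2 : 0 < d → 0 < e → 0 < f → 0 < h) : e + 2 * f + 8 * d ≤ h + 10 := by
  have a1 : d ≤ 1 := by omega
  have a2 : f ≤ 4 := by omega
  interval_cases d <;> interval_cases f <;> omega

theorem model_sound {J : Type} [Fintype J] [DecidableEq J] {P H θ : J → ℤ} {D : ℤ}
    (hs : Small P H θ D) {c : ℕ} (h : PacksInto (msz P H θ D) (Fintype.card J + c)) :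
    ∃ σ : J ≃ J, ∀ x, cnt θ x ≤ cnt (fun j => P j + H (σ j)) x + 10 * c := by
  classical
  obtain ⟨g, hg⟩ := h
  have hD := hs.1
  have l1 : ∀ j, (599 / 1000 : ℚ) ≤ msz P H θ D (.inl j) := fun j => by
    have := abs_le.1 (ms_abs hD (hs.2 j).1)
    simp only [msz]; linarith
  have l2 : ∀ j, (189 / 1000 : ℚ) ≤ msz P H θ D (.inr (.inl j)) := fun j => by
    have := abs_le.1 (ms_abs hD (hs.2 j).2.1)
    simp only [msz]; linarith
  have l3 : ∀ j, (209 / 1000 : ℚ) ≤ msz P H θ D (.inr (.inr j)) := fun j => by
    have := abs_le.1 (ms_abs hD (hs.2 j).2.2)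
    simp only [msz]; linarith
  have l0 : ∀ i, 0 ≤ msz P H θ D i := by
    rintro (j | j | j)
    · linarith [l1 j]
    · linarith [l2 j]
    · linarith [l3 j]
  have hb : ∀ b, 599 * (univ.filter fun j => g (.inl j) = b).card +
      189 * (univ.filter fun j => g (.inr (.inl j)) = b).card +
      209 * (univ.filter fun j => g (.inr (.inr j)) = b).card ≤ 1000 := by
    intro b
    have h1 := hg b
    rw [Finset.sum_filter, Fintype.sum_sum_type, Fintype.sum_sum_type] at h1
    have a1 := ms_sum_ge (fun j => g (.inl j)) b _ l1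
    have a2 := ms_sum_ge (fun j => g (.inr (.inl j))) b _ l2
    have a3 := ms_sum_ge (fun j => g (.inr (.inr j))) b _ l3
    have : (599 : ℚ) * (univ.filter fun j => g (.inl j) = b).card +
      189 * (univ.filter fun j => g (.inr (.inl j)) = b).card +
      209 * (univ.filter fun j => g (.inr (.inr j)) = b).card ≤ 1000 := by linarith
    exact_mod_cast this
  have hinj : ∀ j j', g (.inl j) = g (.inl j') → j = j' := by
    intro j j' e
    have h1 : (univ.filter fun k => g (.inl k) = g (.inl j')).card ≤ 1 := by
      have := hb (g (.inl j'))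
      omega
    exact Finset.card_le_one.1 h1 j (by simpa using e) j' (by simp)
  set R : Finset J := univ.filter fun j =>
    ∃ p : J × J, g (.inr (.inl p.1)) = g (.inl j) ∧ g (.inr (.inr p.2)) = g (.inl j) with hR
  have hcard : Fintype.card J ≤ R.card + 10 * c := by
    have key : ∀ b, (univ.filter fun j => g (.inr (.inl j)) = b).card +
        2 * (univ.filter fun j => g (.inr (.inr j)) = b).card +
        8 * (univ.filter fun j => g (.inl j) = b).card ≤
        (R.filter fun j => g (.inl j) = b).card + 10 := by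
      intro b
      have h1 := hb b
      have h2 : 0 < (univ.filter fun j => g (.inl j) = b).card →
          0 < (univ.filter fun j => g (.inr (.inl j)) = b).card →
          0 < (univ.filter fun j => g (.inr (.inr j)) = b).card →
          0 < (R.filter fun j => g (.inl j) = b).card := by
        simp only [Finset.card_pos]
        rintro ⟨j, hj⟩ ⟨f, hf⟩ ⟨i, hi⟩
        have e1 := (Finset.mem_filter.1 hj).2
        have e2 := (Finset.mem_filter.1 hf).2
        have e3 := (Finset.mem_filter.1 hi).2
        exact ⟨j, Finset.mem_filter.2 ⟨Finset.mem_filter.2 ⟨Finset.mem_univ _, (f, i),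
          e2.trans e1.symm, e3.trans e1.symm⟩, e1⟩⟩
      exact ms_bin h1 h2
    have h1 := Finset.sum_le_sum fun b (_ : b ∈ univ) => key b
    simp only [Finset.sum_add_distrib, ← Finset.mul_sum, ms_fiber, Finset.card_univ, Finset.sum_const,
      Fintype.card_fin, smul_eq_mul] at h1
    omega
  have hch : ∀ j : R, ∃ p : J × J, g (.inr (.inl p.1)) = g (.inl j) ∧ g (.inr (.inr p.2)) = g (.inl j) :=
    fun j => (Finset.mem_filter.1 j.2).2
  choose p hp1 hp2 using hch
  have i1 : Function.Injective fun j : R => (p j).1 := fun j j' e =>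
    Subtype.ext (hinj _ _ ((hp1 j).symm.trans ((congrArg (fun k => g (.inr (.inl k))) e).trans (hp1 j'))))
  have i2 : Function.Injective fun j : R => (p j).2 := fun j j' e =>
    Subtype.ext (hinj _ _ ((hp2 j).symm.trans ((congrArg (fun k => g (.inr (.inr k))) e).trans (hp2 j'))))
  have fit : ∀ j : R, θ (p j).2 ≤ P j + H (p j).1 := by
    intro j
    have h1 : ({.inl j, .inr (.inl (p j).1), .inr (.inr (p j).2)} : Finset (J ⊕ J ⊕ J)) ⊆
        univ.filter fun i => g i = g (.inl j) := by
      intro i hi
      simp only [Finset.mem_insert, Finset.mem_singleton] at hi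
      rcases hi with rfl | rfl | rfl
      · simp
      · simp [hp1 j]
      · simp [hp2 j]
    have h2 := (Finset.sum_le_sum_of_subset_of_nonneg h1 fun i _ _ => l0 i).trans (hg _)
    rw [Finset.sum_insert (by simp), Finset.sum_insert (by simp), Finset.sum_singleton] at h2
    simp only [msz] at h2
    have h3 : (0 : ℚ) < D := Int.cast_pos.2 hD
    have h4 : (θ (p j).2 : ℚ) / D ≤ (P j + H (p j).1) / D := by rw [add_div]; linarith
    exact_mod_cast (div_le_div_iff_of_pos_right h3).1 h4
  obtain ⟨σ, hσ⟩ := Equiv.Perm.exists_extending_pair _ _ Subtype.val_injective i1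
  obtain ⟨τ, hτ⟩ := Equiv.Perm.exists_extending_pair _ _ Subtype.val_injective i2
  refine ⟨σ, fun x => ?_⟩
  have h1 : (univ.filter fun i => x ≤ θ i) ⊆
      ((univ.filter fun j => x ≤ P j + H (σ j)) ∪ Rᶜ).image τ := by
    intro i hi
    obtain ⟨j, rfl⟩ := τ.surjective i
    refine Finset.mem_image_of_mem _ (Finset.mem_union.2 ?_)
    by_cases hj : j ∈ R
    · refine Or.inl (Finset.mem_filter.2 ⟨Finset.mem_univ _, (Finset.mem_filter.1 hi).2.trans ?_⟩)
      have h2 := fit ⟨j, hj⟩
      rwa [← hσ ⟨j, hj⟩, ← hτ ⟨j, hj⟩] at h2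
    · exact Or.inr (Finset.mem_compl.2 hj)
  have h2 := (Finset.card_le_card h1).trans (Finset.card_image_le.trans (Finset.card_union_le _ _))
  rw [Finset.card_compl] at h2
  exact h2.trans (Nat.add_le_add_left (by omega) _)

end Crest.Agent.R318
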