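/-
R318/ModelC: completeness of the three-family model (integral and half-integral).

RECIPE (helper58).  Threshold Hall lemma: for finite types `A`, `B'` and `f : A → ℤ`, `g : B' → ℤ` with
`cnt f x ≤ cnt g x` for all `x` there is an injective `e : A → B'` with `f a ≤ g (e a)`
(`Finset.all_card_le_biUnion_card_iff_exists_injective`; for a nonempty set use `x` = its least value);
with equal cardinalities `e` is a bijection.  `model_pack`: bin of `G j`, `F (σ j)`, `I (e⁻¹ j)` is
`Fintype.equivFin J j`.  `model_lp`: apply the lemma to `A = B' = J × Bool` (`f (i, _) = θ i`,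
`g (j, r) = P j + H (σ_r j)`); pattern `S (j, r) = {G j, F (σ_r j), I (e⁻¹ (j, r)).1}`,
`y H = (1/2) * #{(j, r) | S (j, r) = H}`.
-/
import Crest.Agent.R318.Defs

set_option autoImplicit false

namespace Crest.Agent.R318

open Finset Crest.BinPacking

variable {J : Type} [Fintype J] [DecidableEq J] {P H θ : J → ℤ} {D : ℤ}

/-- threshold Hall lemma -/
theorem thr_hall {A B : Type} [Fintype A] [Fintype B] (f : A → ℤ) (g : B → ℤ)
    (h : ∀ x, cnt f x ≤ cnt g x) (hc : Fintype.card A = Fintype.card B) :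
    ∃ e : A ≃ B, ∀ a, f a ≤ g (e a) := by
  classical
  obtain ⟨e, he, h1⟩ := (all_card_le_biUnion_card_iff_exists_injective
    fun a => univ.filter fun b => f a ≤ g b).1 fun s => by
      rcases s.eq_empty_or_nonempty with rfl | hs
      · simp
      obtain ⟨a, ha, h2⟩ := exists_min_image s f hs
      exact (card_le_card fun b hb => mem_filter.2 ⟨mem_univ _, h2 b hb⟩).trans
        ((h (f a)).trans (card_le_card
          (subset_biUnion_of_mem (fun a => univ.filter fun b => f a ≤ g b) ha)))
  exact ⟨Equiv.ofBijective e ((Fintype.bijective_iff_injective_and_card e).2 ⟨he, hc⟩),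
    fun a => (mem_filter.1 (h1 a)).2⟩

theorem cnt_bool {A : Type} [Fintype A] (f : A × Bool → ℤ) (x : ℤ) :
    cnt f x = cnt (fun a => f (a, false)) x + cnt (fun a => f (a, true)) x := by
  simp only [cnt, card_filter, Fintype.sum_prod_type, Fintype.sum_bool, sum_add_distrib, add_comm]

theorem small_div {a D : ℤ} (hD : 0 < D) (h : 1000 * |a| ≤ D) :
    -(1 / 1000) ≤ (a : ℚ) / D ∧ (a : ℚ) / D ≤ 1 / 1000 := by
  have h1 : (0 : ℚ) < D := by exact_mod_cast hD
  have h2 : 1000 * |(a : ℚ)| ≤ D := by exact_mod_cast h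
  rw [← abs_le, abs_div, abs_of_pos h1, div_le_iff₀ h1]
  linarith

omit [Fintype J] [DecidableEq J] in
theorem msz_fit (hs : Small P H θ D) {j k i : J} (h : θ i ≤ P j + H k) :
    msz P H θ D (.inl j) + (msz P H θ D (.inr (.inl k)) + msz P H θ D (.inr (.inr i))) ≤ 1 := by
  have h1 : (0 : ℚ) < D := by exact_mod_cast hs.1
  have h2 : (θ i : ℚ) / D ≤ (P j + H k) / D :=
    div_le_div_of_nonneg_right (by exact_mod_cast h) h1.le
  rw [add_div] at h2
  simp only [msz]
  linarith

omit [Fintype J] [DecidableEq J] in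
theorem msz_range (hs : Small P H θ D) (i : J ⊕ J ⊕ J) :
    1 / 6 < msz P H θ D i ∧ msz P H θ D i ≤ 1 := by
  rcases i with j | j | j <;> simp only [msz]
  · obtain ⟨h1, h2⟩ := small_div hs.1 (hs.2 j).1
    constructor <;> linarith
  · obtain ⟨h1, h2⟩ := small_div hs.1 (hs.2 j).2.1
    constructor <;> linarith
  · obtain ⟨h1, h2⟩ := small_div hs.1 (hs.2 j).2.2
    constructor <;> linarith

omit [DecidableEq J] in
theorem msz_big (hs : Small P H θ D) :
    (univ.filter fun i => 1 / 2 < msz P H θ D i).card = Fintype.card J := by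
  have h1 : ∀ j, 1 / 2 < msz P H θ D (.inl j) := fun j => by
    simp only [msz]
    linarith [(small_div hs.1 (hs.2 j).1).2]
  have h2 : ∀ j, ¬ 1 / 2 < msz P H θ D (.inr (.inl j)) := fun j => by
    simp only [msz, not_lt]
    linarith [(small_div hs.1 (hs.2 j).2.1).1]
  have h3 : ∀ j, ¬ 1 / 2 < msz P H θ D (.inr (.inr j)) := fun j => by
    simp only [msz, not_lt]
    linarith [(small_div hs.1 (hs.2 j).2.2).2]
  simp only [card_filter, Fintype.sum_sum_type, h1, h2, h3, if_true, if_false, sum_const_zero,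
    add_zero, sum_const, card_univ, smul_eq_mul, mul_one]

theorem model_pack (hs : Small P H θ D) (σ : J ≃ J)
    (h : ∀ x, cnt θ x ≤ cnt (fun j => P j + H (σ j)) x) :
    PacksInto (msz P H θ D) (Fintype.card J) := by
  obtain ⟨e, he⟩ := thr_hall _ _ h rfl
  refine ⟨fun i => Fintype.equivFin J (Sum.elim (Equiv.refl J).symm (Sum.elim σ.symm e) i), fun b => ?_⟩
  obtain ⟨j, rfl⟩ := (Fintype.equivFin J).surjective b
  simp only [sum_filter, Fintype.sum_sum_type, EmbeddingLike.apply_eq_iff_eq, Sum.elim_inl,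
    Sum.elim_inr, Equiv.symm_apply_eq, ← e.eq_symm_apply, sum_ite_eq', mem_univ, if_true]
  refine msz_fit hs ?_
  simpa using he (e.symm j)

theorem model_lp (hs : Small P H θ D) (σ₁ σ₂ : J ≃ J)
    (h : ∀ x, 2 * cnt θ x ≤ cnt (fun j => P j + H (σ₁ j)) x + cnt (fun j => P j + H (σ₂ j)) x) :
    ∃ y, CopyLPFeasible (msz P H θ D) y ∧ copyLPCost y = Fintype.card J := by
  obtain ⟨e, he⟩ := thr_hall (fun p : J × Bool => θ p.1)
    (fun p : J × Bool => P p.1 + H (bif p.2 then σ₂ p.1 else σ₁ p.1))
    (fun x => by rw [cnt_bool, cnt_bool fun p => P p.1 + _, ← two_mul]; exact h x) rfl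
  let S : J × Bool → Finset (J ⊕ J ⊕ J) := fun p =>
    {.inl p.1, .inr (.inl (bif p.2 then σ₂ p.1 else σ₁ p.1)), .inr (.inr (e.symm p).1)}
  refine ⟨fun T => ∑ p, if S p = T then 1 / 2 else 0, ⟨fun T => ?_, fun T hT => ?_, fun i => ?_⟩, ?_⟩
  · exact sum_nonneg fun p _ => by split_ifs <;> norm_num
  · obtain ⟨p, -, hp⟩ := exists_ne_zero_of_sum_ne_zero hT
    obtain rfl : S p = T := by
      by_contra c
      exact hp (if_neg c)
    rw [sum_insert (by simp), sum_pair (by simp)]
    refine msz_fit hs ?_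
    simpa using he (e.symm p)
  · have h1 : ∃ p q, p ≠ q ∧ i ∈ S p ∧ i ∈ S q := by
      rcases i with j | j | j
      · exact ⟨(j, false), (j, true), by simp, by simp [S], by simp [S]⟩
      · exact ⟨(σ₁.symm j, false), (σ₂.symm j, true), by simp, by simp [S], by simp [S]⟩
      · exact ⟨e (j, false), e (j, true), by simp, by simp [S], by simp [S]⟩
    obtain ⟨p, q, h1, h2, h3⟩ := h1
    rw [sum_comm]
    simp only [sum_ite_eq, mem_filter, mem_univ, true_and]
    refine le_trans ?_ (sum_le_sum_of_subset_of_nonneg (subset_univ {p, q})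
      fun _ _ _ => by split_ifs <;> norm_num)
    rw [sum_pair h1, if_pos h2, if_pos h3]
    norm_num
  · rw [copyLPCost, sum_comm]
    simp only [sum_ite_eq, mem_univ, if_true, sum_const, card_univ, Fintype.card_prod,
      Fintype.card_bool, nsmul_eq_mul]
    push_cast
    ring

end Crest.Agent.R318
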