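/-
R318/Plan: nominal placements of the fillers (completeness).

RECIPE (helper58).  A plan: `ρ : Fin (NN φ) → Equiv.Perm (Fin 3)`, `ft : Fin (NN φ) → Bool`,
`fc : Fin (CC φ) → Bool`; `σ (κ,a,r) = (κ, ρ κ a, r)`, `σ (κ,i,b) = (κ,i, xor b (ft κ))`,
`σ (u,b,m,r) = (u, xor b (fc u), m, r)`.  Labels are kept, so `PP j + HH (σ j) = yy j + hl (σ j)`.
For `g j = yy j + e j` (`e ≥ 0`): `cnt g x = cnt yy x + #{j | yy j < x ≤ g j}`.  Let
`D x = {j | yy j < x ≤ TH j}`.  (1) all `j ∈ D x` have the same window `(κ, a)` (`wd_eq_of_near` in Geo) and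
`#D x ≤ TT c` (tower area: `W.depth`; channel area: one stage, `stage_eq` in Geo; the two sides of a
channel are in different cores by `Bdd`).  (2) `#{j | yy j < x ≤ yy j + hl (σ j)} ≥ TT c * [ρ κ a < ss κ]
+ #{j ∈ D x | hl (σ j) = dl j}` (strands of the window; `D x` has no strand).
`plan_sat`: variable `κ`: `ρ = swap (α κ).toNat 0`, `ft = !α κ`; clause with true position `a₀`:
`ρ = swap a₀ 2`, `ft = (a₀ = 1)`; `fc u` = literal `u` is true.  Every demand is served or its window covered.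
`plan_two`: for `r = false, true`: variables `ρ = swap r.toNat 0`, clauses `ρ = 1` resp. `swap 0 2`,
`ft = fc = r`: every demand is served once, every window with a demand is covered at least once.
-/
import Crest.Agent.R318.Geo

set_option autoImplicit false

namespace Crest.Agent.R318

open Finset

variable {c : ℕ} (W : Tower (TT c)) {φ : CnfV ℕ}

/-- the placement of a plan -/
def planE (ρ : Fin (NN φ) → Equiv.Perm (Fin 3)) (ft : Fin (NN φ) → Bool) (fc : Fin (CC φ) → Bool) :
    Idx c W.n φ ≃ Idx c W.n φ where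
  toFun
    | .inl p => .inl (p.1, ρ p.1 p.2.1, p.2.2)
    | .inr (.inl p) => .inr (.inl (p.1, p.2.1, xor p.2.2 (ft p.1)))
    | .inr (.inr p) => .inr (.inr (p.1, xor p.2.1 (fc p.1), p.2.2))
  invFun
    | .inl p => .inl (p.1, (ρ p.1).symm p.2.1, p.2.2)
    | .inr (.inl p) => .inr (.inl (p.1, p.2.1, xor p.2.2 (ft p.1)))
    | .inr (.inr p) => .inr (.inr (p.1, xor p.2.1 (fc p.1), p.2.2))
  left_inv := by
    rintro (p | p | p) <;> simp
  right_inv := by
    rintro (p | p | p) <;> simp

theorem plan_lab (ρ : Fin (NN φ) → Equiv.Perm (Fin 3)) (ft : Fin (NN φ) → Bool)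
    (fc : Fin (CC φ) → Bool) (j : Idx c W.n φ) : lab W φ (planE W ρ ft fc j) = lab W φ j := by
  rcases j with p | p | p <;> rfl

theorem plan_cnt {J : Type} [Fintype J] (y e : J → ℕ) (x : ℤ) :
    cnt (fun j => (y j : ℤ) + e j) x = cnt (fun j => (y j : ℤ)) x +
      (univ.filter fun j => (y j : ℤ) < x ∧ x ≤ (y j : ℤ) + e j).card := by
  classical
  unfold cnt
  rw [← card_union_of_disjoint]
  · congr 1
    ext j
    simp only [mem_filter, mem_univ, true_and, mem_union]
    omega
  · rw [disjoint_filter]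
    intro j _ h1 h2
    beta_reduce at h1
    omega

/-- the demands at `x` -/
def planD (φ : CnfV ℕ) (x : ℤ) : Finset (Idx c W.n φ) :=
  univ.filter fun j => (yy W φ j : ℤ) < x ∧ x ≤ (yy W φ j : ℤ) + dl W φ j

/-- the supplies at `x` -/
def planS (σ : Idx c W.n φ ≃ Idx c W.n φ) (x : ℤ) : Finset (Idx c W.n φ) :=
  univ.filter fun j => (yy W φ j : ℤ) < x ∧ x ≤ (yy W φ j : ℤ) + hl W φ (σ j)

theorem plan_TH (x : ℤ) :
    cnt (TH W φ) x = cnt (fun j => (yy W φ j : ℤ)) x + (planD W φ x).card :=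
  plan_cnt (yy W φ) (dl W φ) x

theorem plan_PH (ρ : Fin (NN φ) → Equiv.Perm (Fin 3)) (ft : Fin (NN φ) → Bool)
    (fc : Fin (CC φ) → Bool) (x : ℤ) :
    cnt (fun j => PP W φ j + HH W φ (planE W ρ ft fc j)) x =
      cnt (fun j => (yy W φ j : ℤ)) x + (planS W (planE W ρ ft fc) x).card := by
  have : (fun j => PP W φ j + HH W φ (planE W ρ ft fc j)) =
      fun j => (yy W φ j : ℤ) + hl W φ (planE W ρ ft fc j) := by
    funext j
    unfold PP HH
    rw [plan_lab]
    ring
  rw [this]
  exact plan_cnt (yy W φ) (fun j => hl W φ (planE W ρ ft fc j)) x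

theorem plan_memD {x : ℤ} {j : Idx c W.n φ} :
    j ∈ planD W φ x ↔
      (ZZ (ww c W.L φ) (wd W φ j).1 (wd W φ j).2 : ℤ) + off W φ j < x ∧
      x ≤ (ZZ (ww c W.L φ) (wd W φ j).1 (wd W φ j).2 : ℤ) + off W φ j + dl W φ j := by
  unfold planD yy
  simp only [mem_filter, mem_univ, true_and, Nat.cast_add]

theorem plan_wd (hb : Bdd φ) {x : ℤ} {j j' : Idx c W.n φ} (h : j ∈ planD W φ x)
    (h' : j' ∈ planD W φ x) : wd W φ j = wd W φ j' := by
  rw [plan_memD] at h h'
  have a1 := off_add_dl_lt W j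
  have a2 := off_add_dl_lt W j'
  have := wd_eq_of_near (w := ww c W.L φ) (wd_lt W hb j).2 (wd_lt W hb j').2
    (κ := (wd W φ j).1) (κ' := (wd W φ j').1) (by omega) (by omega)
  exact Prod.ext this.1 this.2

theorem plan_cardD (hb : Bdd φ) (x : ℤ) : (planD W φ x).card ≤ TT c := by
  classical
  rcases (planD W φ x).eq_empty_or_nonempty with h | ⟨j0, h0⟩
  · rw [h]; simp
  have hall : ∀ j ∈ planD W φ x, wd W φ j = wd W φ j0 ∧
      (ZZ (ww c W.L φ) (wd W φ j0).1 (wd W φ j0).2 : ℤ) + off W φ j < x ∧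
      x ≤ (ZZ (ww c W.L φ) (wd W φ j0).1 (wd W φ j0).2 : ℤ) + off W φ j + dl W φ j := by
    intro j hj
    have e := plan_wd W hb hj h0
    rw [plan_memD, e] at hj
    exact ⟨e, hj⟩
  have h00 := hall j0 h0
  generalize ZZ (ww c W.L φ) (wd W φ j0).1 (wd W φ j0).2 = z at hall h00
  rcases j0 with p | p | p
  · simp only [off, dl] at h00; omega
  · have hfit := W.fit p.2.1 p.2.1 p.2.2
    simp only [off, dl] at h00
    refine le_trans ?_ (W.depth p.2.2 (x - z).toNat)
    have hsub : planD W φ x ⊆ (univ.filter fun i => W.pos i p.2.2 < (x - z).toNat ∧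
        (x - z).toNat ≤ W.pos i p.2.2 + W.len i).image
        (fun i => (.inr (.inl (p.1, i, p.2.2)) : Idx c W.n φ)) := by
      intro j hj
      obtain ⟨e, h1, h2⟩ := hall j hj
      rcases j with q | q | q
      · simp only [off, dl] at h1 h2; omega
      · simp only [off, dl] at h1 h2
        simp only [wd, Prod.mk.injEq] at e
        obtain ⟨κ, i, b⟩ := q
        obtain ⟨κ0, i0, b0⟩ := p
        simp only at e h1 h2 ⊢
        have e1 : κ = κ0 := Fin.ext e.1
        have e2 : b = b0 := by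
          have := e.2
          cases b <;> cases b0 <;> simp_all
        subst e1 e2
        refine mem_image.2 ⟨i, ?_, rfl⟩
        simp only [mem_filter, mem_univ, true_and]
        omega
      · simp only [off, dl] at h1 h2
        exfalso
        have : (0 : ℤ) ≤ ((2 * KK c φ ^ (q.1 : ℕ) * (q.2.2.1 + 1) : ℕ) : ℤ) := Nat.cast_nonneg _
        omega
    exact (card_le_card hsub).trans card_image_le
  · simp only [off, dl] at h00
    have hsub : planD W φ x ⊆ (univ : Finset (Fin (TT c))).image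
        (fun r => (.inr (.inr (p.1, p.2.1, p.2.2.1, r)) : Idx c W.n φ)) := by
      intro j hj
      obtain ⟨e, h1, h2⟩ := hall j hj
      rcases j with q | q | q
      · simp only [off, dl] at h1 h2; omega
      · simp only [off, dl] at h1 h2
        have hfit := W.fit q.2.1 q.2.1 q.2.2
        exfalso
        have : (0 : ℤ) ≤ ((2 * KK c φ ^ (p.1 : ℕ) * (p.2.2.1 + 1) : ℕ) : ℤ) := Nat.cast_nonneg _
        omega
      · simp only [off, dl] at h1 h2
        simp only [wd] at e
        obtain ⟨u, b, m, r⟩ := q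
        obtain ⟨u0, b0, m0, r0⟩ := p
        simp only at e h1 h2 h00 ⊢
        have hoff : 2 * KK c φ ^ (u : ℕ) * (m + 1) = 2 * KK c φ ^ (u0 : ℕ) * (m0 + 1) := by omega
        have p1 := KK_pow_pos c φ u0
        have hs := stage_eq (c := c) (φ := φ) (u := u) (u' := u0) m.2 m0.2 (by omega) (by omega)
        have e1 : u = u0 := Fin.ext hs.1
        have e2 : m = m0 := Fin.ext hs.2
        subst e1 e2
        have e3 : b = b0 := by
          have a1 := chW_fst_lt_iff hb u.2 b
          have a2 := chW_fst_lt_iff hb u.2 b0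
          rw [e] at a1
          cases b <;> cases b0 <;> simp_all
        subst e3
        exact mem_image.2 ⟨r, mem_univ _, rfl⟩
    refine (card_le_card hsub).trans (card_image_le.trans ?_)
    simp

/-- the window of `j` is covered by long strand fillers -/
def planCov (ρ : Fin (NN φ) → Equiv.Perm (Fin 3)) (j : Idx c W.n φ) : Prop :=
  ∀ (κ : Fin (NN φ)) (a : Fin 3), wd W φ j = ((κ : ℕ), (a : ℕ)) → ((ρ κ a : Fin 3) : ℕ) < ss φ κ

theorem plan_srv (σ : Idx c W.n φ ≃ Idx c W.n φ) (x : ℤ) :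
    (planD W φ x).filter (fun j => hl W φ (σ j) = dl W φ j) ⊆ planS W σ x := by
  intro j hj
  unfold planD at hj
  unfold planS
  simp only [mem_filter, mem_univ, true_and] at hj ⊢
  rw [hj.2]
  exact hj.1

theorem plan_cov (hb : Bdd φ) (ρ : Fin (NN φ) → Equiv.Perm (Fin 3)) (ft : Fin (NN φ) → Bool)
    (fc : Fin (CC φ) → Bool) {x : ℤ} {j0 : Idx c W.n φ} (h0 : j0 ∈ planD W φ x)
    (hc : planCov W ρ j0) :
    TT c + ((planD W φ x).filter (fun j => hl W φ (planE W ρ ft fc j) = dl W φ j)).card ≤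
      (planS W (planE W ρ ft fc) x).card := by
  classical
  obtain ⟨h1, h2⟩ := wd_lt W hb j0
  have hc' := hc ⟨_, h1⟩ ⟨_, h2⟩ rfl
  have hlt := off_add_dl_lt W j0
  rw [plan_memD] at h0
  let S : Finset (Idx c W.n φ) :=
    (univ : Finset (Fin (TT c))).image (fun r => .inl (⟨_, h1⟩, ⟨_, h2⟩, r))
  have hS : S.card = TT c := by
    rw [card_image_of_injective]
    · simp
    · intro r r' h
      simpa using h
  refine le_trans (Nat.add_le_add_right hS.ge _) ?_
  rw [← card_union_of_disjoint]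
  · refine card_le_card (union_subset ?_ (plan_srv W _ x))
    intro j hj
    obtain ⟨r, _, rfl⟩ := mem_image.1 hj
    unfold planS
    rw [mem_filter]
    refine ⟨mem_univ _, ?_⟩
    have e1 : yy W φ (.inl (⟨_, h1⟩, ⟨_, h2⟩, r)) = ZZ (ww c W.L φ) (wd W φ j0).1 (wd W φ j0).2 := rfl
    have e2 : hl W φ (planE W ρ ft fc (.inl (⟨_, h1⟩, ⟨_, h2⟩, r))) = ww c W.L φ := if_pos hc'
    rw [e1, e2]
    omega
  · rw [disjoint_left]
    intro j hj hj'
    obtain ⟨r, _, rfl⟩ := mem_image.1 hj
    have := (plan_memD W).1 (mem_filter.1 hj').1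
    simp only [off, dl] at this
    omega

theorem plan_ss_lt {κ : ℕ} (h : κ < CC φ) : ss φ κ = 1 := if_pos h
theorem plan_ss_ge {κ : ℕ} (h : ¬ κ < CC φ) : ss φ κ = 2 := if_neg h

theorem plan_swap0 (b : Bool) (a : Fin 3) (h : (a : ℕ) = b.toNat) :
    ((Equiv.swap (if b = true then (1 : Fin 3) else 0) 0 a : Fin 3) : ℕ) < 1 := by
  revert b a
  decide

theorem plan_swap2 (a0 a : Fin 3) (h : (a : ℕ) ≠ a0) : ((Equiv.swap a0 2 a : Fin 3) : ℕ) < 2 := by
  revert a0 a
  decide

theorem plan_sat (hb : Bdd φ) (hs : Sat φ) : ∃ σ : Idx c W.n φ ≃ Idx c W.n φ,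
    ∀ x, cnt (TH W φ) x ≤ cnt (fun j => PP W φ j + HH W φ (σ j)) x := by
  classical
  obtain ⟨α, hα⟩ := hs
  have hα' : ∀ j, ∃ a : Fin 3, j < φ.length → α (lit φ (3 * j + a)).1 = (lit φ (3 * j + a)).2 := by
    intro j
    by_cases hj : j < φ.length
    · obtain ⟨a, ha, h⟩ := hα j hj
      exact ⟨⟨a, ha⟩, fun _ => h⟩
    · exact ⟨0, fun h => absurd h hj⟩
  choose a0 ha0 using hα'
  let ρ : Fin (NN φ) → Equiv.Perm (Fin 3) := fun κ =>
    if (κ : ℕ) < CC φ then Equiv.swap (if α κ = true then 1 else 0) 0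
    else Equiv.swap (a0 (κ - CC φ)) 2
  let ft : Fin (NN φ) → Bool := fun κ =>
    if (κ : ℕ) < CC φ then !α κ else decide ((a0 (κ - CC φ) : ℕ) = 1)
  let fc : Fin (CC φ) → Bool := fun u => decide (α (lit φ u).1 = (lit φ u).2)
  have covV : ∀ (κ : Fin (NN φ)) (a : Fin 3), (κ : ℕ) < CC φ → (a : ℕ) = (α κ).toNat →
      ((ρ κ a : Fin 3) : ℕ) < ss φ κ := by
    intro κ a hκ ha
    rw [plan_ss_lt hκ]
    simp only [ρ, if_pos hκ]
    exact plan_swap0 _ _ ha
  have covC : ∀ (κ : Fin (NN φ)) (a : Fin 3), ¬ (κ : ℕ) < CC φ → (a : ℕ) ≠ a0 (κ - CC φ) →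
      ((ρ κ a : Fin 3) : ℕ) < ss φ κ := by
    intro κ a hκ ha
    rw [plan_ss_ge hκ]
    simp only [ρ, if_neg hκ]
    exact plan_swap2 _ _ ha
  have key : ∀ j : Idx c W.n φ, dl W φ j ≠ 0 →
      hl W φ (planE W ρ ft fc j) = dl W φ j ∨ planCov W ρ j := by
    rintro (p | ⟨κ, i, b⟩ | ⟨u, b, m, r⟩) hj
    · exact absurd rfl hj
    · by_cases hbf : b = ft κ
      · left
        show (if xor b (ft κ) = true then 0 else W.len i) = W.len i
        rw [hbf]; simp
      · right
        intro κ' a e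
        simp only [wd, Prod.mk.injEq] at e
        have e1 : κ = κ' := Fin.ext e.1
        subst e1
        by_cases hκ : (κ : ℕ) < CC φ
        · refine covV κ a hκ ?_
          simp only [ft, if_pos hκ] at hbf
          rw [← e.2]
          cases b <;> cases h : α κ <;> simp_all
        · refine covC κ a hκ ?_
          simp only [ft, if_neg hκ] at hbf
          rw [← e.2]
          cases b
          · simp at hbf
            simp [hbf]
          · simp at hbf
            simp
            omega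
    · by_cases hbf : b = fc u
      · left
        show (if xor b (fc u) = true then 0 else 1) = 1
        rw [hbf]; simp
      · right
        intro κ a e
        simp only [wd] at e
        have hlt := chW_fst_lt_iff hb u.2 b
        rw [e] at hlt
        cases b
        · have hκ : (κ : ℕ) < CC φ := hlt.2 rfl
          refine covV κ a hκ ?_
          simp only [chW, Bool.false_eq_true, if_false, Prod.mk.injEq] at e
          have : α (lit φ u).1 = (lit φ u).2 := by
            simpa [fc] using hbf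
          rw [← e.1, ← e.2, this]
        · have hκ : ¬ (κ : ℕ) < CC φ := fun h => by simpa using hlt.1 h
          refine covC κ a hκ ?_
          simp only [chW, if_true, Prod.mk.injEq] at e
          have hn : ¬ α (lit φ u).1 = (lit φ u).2 := by
            simpa [fc] using hbf
          have hu : (u : ℕ) < 3 * φ.length := u.2
          have e3 : (κ : ℕ) - CC φ = u / 3 := by omega
          rw [e3]
          intro h
          apply hn
          have := ha0 (u / 3) (by omega)
          rwa [show 3 * ((u : ℕ) / 3) + (a0 (u / 3) : ℕ) = u by omega] at this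
  refine ⟨planE W ρ ft fc, fun x => ?_⟩
  rw [plan_TH, plan_PH]
  refine Nat.add_le_add_left ?_ _
  by_cases hex : ∃ j ∈ planD W φ x, planCov W ρ j
  · obtain ⟨j, hj, hc⟩ := hex
    have h1 := plan_cov W hb ρ ft fc hj hc
    have h2 := plan_cardD W hb x
    omega
  · refine card_le_card (Subset.trans ?_ (plan_srv W _ x))
    intro j hj
    refine mem_filter.2 ⟨hj, ?_⟩
    have hd : dl W φ j ≠ 0 := by
      have := (plan_memD W).1 hj
      omega
    exact (key j hd).resolve_right fun h => hex ⟨j, hj, h⟩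

theorem plan_two (hb : Bdd φ) : ∃ σ₁ σ₂ : Idx c W.n φ ≃ Idx c W.n φ,
    ∀ x, 2 * cnt (TH W φ) x ≤ cnt (fun j => PP W φ j + HH W φ (σ₁ j)) x +
      cnt (fun j => PP W φ j + HH W φ (σ₂ j)) x := by
  classical
  let ρ : Bool → Fin (NN φ) → Equiv.Perm (Fin 3) := fun r κ =>
    if (κ : ℕ) < CC φ then Equiv.swap (if r = true then 1 else 0) 0
    else Equiv.swap (if r = true then 0 else 2) 2
  have covV : ∀ (r : Bool) (κ : Fin (NN φ)) (a : Fin 3), (κ : ℕ) < CC φ → (a : ℕ) = r.toNat →
      ((ρ r κ a : Fin 3) : ℕ) < ss φ κ := by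
    intro r κ a hκ ha
    rw [plan_ss_lt hκ]
    simp only [ρ, if_pos hκ]
    exact plan_swap0 _ _ ha
  have covC : ∀ (r : Bool) (κ : Fin (NN φ)) (a : Fin 3), ¬ (κ : ℕ) < CC φ →
      (a : ℕ) ≠ (if r = true then 0 else 2) → ((ρ r κ a : Fin 3) : ℕ) < ss φ κ := by
    intro r κ a hκ ha
    rw [plan_ss_ge hκ]
    simp only [ρ, if_neg hκ]
    refine plan_swap2 _ _ ?_
    cases r <;> simpa using ha
  have srv : ∀ j : Idx c W.n φ, dl W φ j ≠ 0 → ∃ r : Bool,
      hl W φ (planE W (ρ r) (fun _ => r) (fun _ => r) j) = dl W φ j := by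
    rintro (p | ⟨κ, i, b⟩ | ⟨u, b, m, r⟩) hj
    · exact absurd rfl hj
    · refine ⟨b, ?_⟩
      show (if xor b b = true then 0 else W.len i) = W.len i
      simp
    · refine ⟨b, ?_⟩
      show (if xor b b = true then 0 else 1) = 1
      simp
  have cov : ∀ j : Idx c W.n φ, dl W φ j ≠ 0 → ∃ r : Bool, planCov W (ρ r) j := by
    intro j hj
    by_cases hκ : (wd W φ j).1 < CC φ
    · have : ∃ r : Bool, (wd W φ j).2 = r.toNat := by
        rcases j with p | ⟨κ, i, b⟩ | ⟨u, b, m, r⟩
        · exact absurd rfl hj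
        · exact ⟨b, rfl⟩
        · have hb' : b = false := (chW_fst_lt_iff hb u.2 b).1 hκ
          subst hb'
          exact ⟨(lit φ u).2, rfl⟩
      obtain ⟨r, hr⟩ := this
      refine ⟨r, fun κ a e => ?_⟩
      rw [e] at hκ hr
      exact covV r κ a hκ hr
    · refine ⟨decide ((wd W φ j).2 = 2), fun κ a e => ?_⟩
      rw [e] at hκ
      refine covC _ κ a hκ ?_
      rw [e]
      by_cases ha : (a : ℕ) = 2 <;> simp [ha]
  refine ⟨planE W (ρ false) (fun _ => false) (fun _ => false),
    planE W (ρ true) (fun _ => true) (fun _ => true), fun x => ?_⟩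
  rw [plan_TH, plan_PH, plan_PH]
  rcases (planD W φ x).eq_empty_or_nonempty with h | ⟨j0, h0⟩
  · rw [h, card_empty]; omega
  have hd : ∀ j ∈ planD W φ x, dl W φ j ≠ 0 := by
    intro j hj
    have := (plan_memD W).1 hj
    omega
  have h1 := plan_cardD W hb x
  have h2 := card_le_card (plan_srv W (planE W (ρ false) (fun _ => false) (fun _ => false)) x)
  have h3 := card_le_card (plan_srv W (planE W (ρ true) (fun _ => true) (fun _ => true)) x)
  have h4 : (planD W φ x).card ≤
      ((planD W φ x).filter (fun j =>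
        hl W φ (planE W (ρ false) (fun _ => false) (fun _ => false) j) = dl W φ j)).card +
      ((planD W φ x).filter (fun j =>
        hl W φ (planE W (ρ true) (fun _ => true) (fun _ => true) j) = dl W φ j)).card := by
    refine le_trans (card_le_card ?_) (card_union_le _ _)
    intro j hj
    obtain ⟨r, hr⟩ := srv j (hd j hj)
    rw [mem_union, mem_filter, mem_filter]
    cases r
    · exact Or.inl ⟨hj, hr⟩
    · exact Or.inr ⟨hj, hr⟩
  obtain ⟨r, hr⟩ := cov j0 (hd j0 h0)
  have h5 := plan_cov W hb (ρ r) (fun _ => r) (fun _ => r) h0 hr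
  cases r <;> omega

end Crest.Agent.R318
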