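/-
R318/Red: renaming of variables and the polynomial-time list of sizes.

RECIPE (helper58).  `exists_rename`: rename `v` to `List.idxOf v vs`, `vs = φ.flatMap fun c => [c.1.1,
c.2.1.1, c.2.2.1]` (length `3 m`; `idxOf` is injective on members, `α' n = α (vs.getD n default)`).
`exists_red`: a list `tr φ : List (ℤ × ℤ × ℤ)` of the triples `(PP, HH, TH)` written with `List.range`,
`flatMap`, `List.replicate (TT c)` and the constant list `(List.finRange W.n).map fun i => (W.len i,
W.pos i false, W.pos i true)`; sizes = three maps of it appended.  To get `e`, either exhibit an exhaustive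
duplicate-free list `E` of `Idx ⊕ Idx ⊕ Idx` with `sizes = E.map (sz W φ)`
(`List.Nodup.getEquivOfForallMemList`; build `E` from `List.finRange` by products, `map_finRange_val`), or
prove equality of multisets and use a general lemma.
-/
import Crest.Agent.R318.Defs
import Crest.Agent.Lib.PolyTime.More

set_option autoImplicit false

namespace Crest.Agent.R318

open Crest.Agent.Lib.PolyTime

/-- The variables of a formula, by occurrence. -/
def redVs {V : Type} (φ : CnfV V) : List V := φ.flatMap fun c => [c.1.1, c.2.1.1, c.2.2.1]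

theorem length_redVs {V : Type} (φ : CnfV V) : (redVs φ).length = 3 * φ.length := by
  induction φ with
  | nil => rfl
  | cons c φ ih =>
    simp only [redVs, List.flatMap_cons, List.length_append, List.length_cons, List.length_nil] at ih ⊢
    omega

theorem red_sat_iff (φ : CnfV ℕ) : Sat φ ↔ SatV φ := by
  have key : ∀ (α : ℕ → Bool) (j : ℕ) (hj : j < φ.length),
      (∃ a < 3, α (lit φ (3 * j + a)).1 = (lit φ (3 * j + a)).2) ↔
        (α φ[j].1.1 = φ[j].1.2 ∨ α φ[j].2.1.1 = φ[j].2.1.2 ∨ α φ[j].2.2.1 = φ[j].2.2.2) := by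
    intro α j hj
    have h : ∀ a < 3, lit φ (3 * j + a) = litAt φ[j] a := by
      intro a ha
      unfold lit
      rw [show (3 * j + a) / 3 = j by omega, show (3 * j + a) % 3 = a by omega,
        List.getD_eq_getElem _ _ hj]
    constructor
    · rintro ⟨a, ha, h1⟩
      rw [h a ha] at h1
      interval_cases a
      · exact Or.inl h1
      · exact Or.inr (Or.inl h1)
      · exact Or.inr (Or.inr h1)
    · rintro (h1 | h1 | h1)
      · exact ⟨0, by norm_num, by rw [h 0 (by norm_num)]; exact h1⟩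
      · exact ⟨1, by norm_num, by rw [h 1 (by norm_num)]; exact h1⟩
      · exact ⟨2, by norm_num, by rw [h 2 (by norm_num)]; exact h1⟩
  refine exists_congr fun α => ⟨fun h c hc => ?_, fun h j hj => ?_⟩
  · obtain ⟨j, hj, rfl⟩ := List.getElem_of_mem hc
    exact (key α j hj).1 (h j hj)
  · exact (key α j hj).2 (h _ (List.getElem_mem hj))

theorem exists_rename : ∃ G : CnfV (ℕ × ℕ × ℕ × ℕ) → CnfV ℕ, PT G ∧
    ∀ φ, Bdd (G φ) ∧ (SatV φ ↔ Sat (G φ)) := by
  refine ⟨fun φ => φ.map fun c => (((redVs φ).idxOf c.1.1, c.1.2),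
    ((redVs φ).idxOf c.2.1.1, c.2.1.2), ((redVs φ).idxOf c.2.2.1, c.2.2.2)), ?_, fun φ => ⟨?_, ?_⟩⟩
  · unfold redVs
    fun_prop
  · intro u hu
    rw [List.length_map] at hu ⊢
    have hj : u / 3 < φ.length := by omega
    have hm : ∀ v ∈ [φ[u / 3].1.1, φ[u / 3].2.1.1, φ[u / 3].2.2.1],
        (redVs φ).idxOf v < 3 * φ.length := fun v hv => by
      rw [← length_redVs]
      exact List.idxOf_lt_length_of_mem (List.mem_flatMap.2 ⟨_, List.getElem_mem hj, hv⟩)
    unfold lit litAt
    rw [List.getD_eq_getElem _ _ (by rwa [List.length_map]), List.getElem_map]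
    split_ifs
    · exact hm _ (by simp)
    · exact hm _ (by simp)
    · exact hm _ (by simp)
  · rw [red_sat_iff]
    constructor
    · rintro ⟨α, h⟩
      refine ⟨fun n => α ((redVs φ).getD n default), fun c hc => ?_⟩
      obtain ⟨d, hd, rfl⟩ := List.mem_map.1 hc
      have hm : ∀ v ∈ [d.1.1, d.2.1.1, d.2.2.1],
          (redVs φ).getD ((redVs φ).idxOf v) default = v := fun v hv => by
        have h1 : v ∈ redVs φ := List.mem_flatMap.2 ⟨_, hd, hv⟩
        rw [List.getD_eq_getElem _ _ (List.idxOf_lt_length_of_mem h1), List.getElem_idxOf]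
      simp only
      rw [hm _ (by simp), hm _ (by simp), hm _ (by simp)]
      exact h d hd
    · rintro ⟨α, h⟩
      exact ⟨fun v => α ((redVs φ).idxOf v), fun c hc => h _ (List.mem_map.2 ⟨c, hc, rfl⟩)⟩

/-- The values `(PP, HH, TH)` from label, window, offset and the two lengths. -/
def redRow (c L : ℕ) (φ : CnfV ℕ) (l : ℕ) (w : ℕ × ℕ) (o d h : ℕ) : ℤ × ℤ × ℤ :=
  let y : ℕ := ww c L φ * (12 * 8 ^ min w.1 (NN φ) + 2 * w.2) + o
  let ν : ℕ := if l < NN φ then 6 * ww c L φ * 8 ^ min l (NN φ)
    else 6 * ww c L φ * 8 ^ NN φ + KK c φ ^ min (l - NN φ) (CC φ)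
  ((y : ℤ) + ν, (h : ℤ) - ν, (y : ℤ) + d)

/-- The list of all values. -/
def redTr (c L : ℕ) (T : List (ℕ × ℕ × ℕ)) (φ : CnfV ℕ) : List (ℤ × ℤ × ℤ) :=
  ((List.range (NN φ) ×ˢ List.range 3 ×ˢ List.range (TT c)).map fun p =>
    redRow c L φ p.1 (p.1, p.2.1) 0 0 (if p.2.1 < ss φ p.1 then ww c L φ else 0)) ++
  (((List.range (NN φ) ×ˢ T ×ˢ [false, true]).map fun p =>
    redRow c L φ p.1 (p.1, p.2.2.toNat) (if p.2.2 = true then p.2.1.2.2 else p.2.1.2.1) p.2.1.1
      (if p.2.2 = true then 0 else p.2.1.1)) ++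
  (List.range (CC φ) ×ˢ [false, true] ×ˢ List.range (MM c φ) ×ˢ List.range (TT c)).map fun p =>
    redRow c L φ (NN φ + p.1) (chW φ p.1 p.2.1)
      (L + 2 * KK c φ ^ min p.1 (CC φ) * (p.2.2.1 + 1)) 1 (if p.2.1 = true then 0 else 1))

section PTs
variable {α : Type} [Enc α] {φ : α → CnfV ℕ}

@[fun_prop] theorem pt_NN (h : PT φ) : PT fun a => NN (φ a) := by unfold NN; fun_prop
@[fun_prop] theorem pb_NN (h : PT φ) : PB fun a => NN (φ a) := by unfold NN; fun_prop
@[fun_prop] theorem pt_CC (h : PT φ) : PT fun a => CC (φ a) := by unfold CC; fun_prop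
@[fun_prop] theorem pb_CC (h : PT φ) : PB fun a => CC (φ a) := by unfold CC; fun_prop
@[fun_prop] theorem pt_MM (c : ℕ) (h : PT φ) : PT fun a => MM c (φ a) := by unfold MM; fun_prop
@[fun_prop] theorem pb_MM (c : ℕ) (h : PT φ) : PB fun a => MM c (φ a) := by unfold MM; fun_prop
@[fun_prop] theorem pt_KK (c : ℕ) (h : PT φ) : PT fun a => KK c (φ a) := by unfold KK; fun_prop
@[fun_prop] theorem pt_ww (c L : ℕ) (h : PT φ) : PT fun a => ww c L (φ a) := by unfold ww; fun_prop
@[fun_prop] theorem pt_DD (c L : ℕ) (h : PT φ) : PT fun a => DD c L (φ a) := by unfold DD; fun_prop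
@[fun_prop] theorem pt_ss {κ : α → ℕ} (h : PT φ) (hκ : PT κ) : PT fun a => ss (φ a) (κ a) := by
  unfold ss; fun_prop
@[fun_prop] theorem pt_lit {u : α → ℕ} (h : PT φ) (hu : PT u) : PT fun a => lit (φ a) (u a) := by
  unfold lit litAt; fun_prop
@[fun_prop] theorem pt_chW {u : α → ℕ} {b : α → Bool} (h : PT φ) (hu : PT u) (hb : PT b) :
    PT fun a => chW (φ a) (u a) (b a) := by
  unfold chW; fun_prop
@[fun_prop] theorem pt_redRow (c L : ℕ) {l o d g : α → ℕ} {w : α → ℕ × ℕ} (h : PT φ) (hl : PT l)
    (hw : PT w) (ho : PT o) (hd : PT d) (hg : PT g) :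
    PT fun a => redRow c L (φ a) (l a) (w a) (o a) (d a) (g a) := by
  simp only [redRow]
  fun_prop
@[fun_prop] theorem pt_redTr (c L : ℕ) (T : List (ℕ × ℕ × ℕ)) (h : PT φ) :
    PT fun a => redTr c L T (φ a) := by
  unfold redTr; fun_prop

end PTs

theorem red_sprod_map {α β γ δ : Type} (f : α → γ) (g : β → δ) (l : List α) (m : List β) :
    l.map f ×ˢ m.map g = (l ×ˢ m).map (Prod.map f g) := by
  induction l with
  | nil => simp
  | cons a l ih => simp [List.product_cons, ih, Function.comp_def]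

theorem red_range (n : ℕ) : List.range n = (List.finRange n).map Fin.val := by simp

/-- A list of all elements without repetition. -/
def RedAll {α : Type} (l : List α) : Prop := l.Nodup ∧ ∀ a, a ∈ l

theorem redAll_fin (n : ℕ) : RedAll (List.finRange n) := ⟨List.nodup_finRange n, List.mem_finRange⟩

theorem redAll_bool : RedAll [false, true] := ⟨by simp, by simp⟩

theorem RedAll.prod {α β : Type} {l : List α} {m : List β} (hl : RedAll l) (hm : RedAll m) :
    RedAll (l ×ˢ m) := ⟨hl.1.product hm.1, fun a => List.mem_product.2 ⟨hl.2 a.1, hm.2 a.2⟩⟩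

theorem RedAll.sum {α β : Type} {l : List α} {m : List β} (hl : RedAll l) (hm : RedAll m) :
    RedAll (l.map Sum.inl ++ m.map Sum.inr) := by
  refine ⟨List.Nodup.append (hl.1.map Sum.inl_injective) (hm.1.map Sum.inr_injective) ?_, ?_⟩
  · simp [List.disjoint_left]
  · rintro (a | b)
    · simp [hl.2 a]
    · simp [hm.2 b]

theorem RedAll.card {α : Type} [Fintype α] [DecidableEq α] {l : List α} (hl : RedAll l) :
    l.length = Fintype.card α := by
  rw [← List.toFinset_card_of_nodup hl.1, ← Finset.card_univ]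
  congr 1
  exact Finset.eq_univ_of_forall fun a => List.mem_toFinset.2 (hl.2 a)

theorem RedAll.equiv {α β : Type} [DecidableEq α] {l : List α} (hl : RedAll l) (f : α → β)
    {m : List β} (hm : m = l.map f) : ∃ e : Fin m.length ≃ α, ∀ i, m.get i = f (e i) := by
  subst hm
  refine ⟨(finCongr (List.length_map f)).trans (List.Nodup.getEquivOfForallMemList l hl.1 hl.2),
    fun i => ?_⟩
  simp

theorem exists_red {c : ℕ} (W : Tower (TT c)) : ∃ R : CnfV ℕ → List ℚ × ℕ, PT R ∧
    ∀ φ, Bdd φ → (R φ).2 = Fintype.card (Idx c W.n φ) ∧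
      ∃ e : Fin (R φ).1.length ≃ (Idx c W.n φ ⊕ Idx c W.n φ ⊕ Idx c W.n φ),
        ∀ i, (R φ).1.get i = sz W φ (e i) := by
  set t : Fin W.n → ℕ × ℕ × ℕ := fun i => (W.len i, W.pos i false, W.pos i true) with ht
  set T := (List.finRange W.n).map t with hT
  refine ⟨fun φ => (((redTr c W.L T φ).map fun r => 3 / 5 - (r.1 : ℚ) / ((DD c W.L φ : ℤ) : ℚ)) ++
    (((redTr c W.L T φ).map fun r => 19 / 100 - (r.2.1 : ℚ) / ((DD c W.L φ : ℤ) : ℚ)) ++
    (redTr c W.L T φ).map fun r => 21 / 100 + (r.2.2 : ℚ) / ((DD c W.L φ : ℤ) : ℚ)),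
    (redTr c W.L T φ).length), by fun_prop, fun φ hb => ?_⟩
  have hE := ((redAll_fin (NN φ)).prod ((redAll_fin 3).prod (redAll_fin (TT c)))).sum
    (((redAll_fin (NN φ)).prod ((redAll_fin W.n).prod redAll_bool)).sum
      ((redAll_fin (CC φ)).prod (redAll_bool.prod ((redAll_fin (MM c φ)).prod (redAll_fin (TT c))))))
  have hrow : ∀ j : Idx c W.n φ, lab W φ j < NN φ + CC φ → (wd W φ j).1 < NN φ →
      (PP W φ j, HH W φ j, TH W φ j) =
        redRow c W.L φ (lab W φ j) (wd W φ j) (off W φ j) (dl W φ j) (hl W φ j) := by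
    intro j h1 h2
    simp only [redRow, PP, HH, TH, yy, ZZ, nu, min_eq_left h2.le]
    split_ifs with h3
    · rw [min_eq_left h3.le]
    · rw [min_eq_left (by omega)]
  have key : redTr c W.L T φ = List.map (fun j : Idx c W.n φ => (PP W φ j, HH W φ j, TH W φ j))
      (List.map Sum.inl (List.finRange (NN φ) ×ˢ List.finRange 3 ×ˢ
        List.finRange (TT c)) ++ List.map Sum.inr (List.map Sum.inl (List.finRange (NN φ) ×ˢ
        List.finRange W.n ×ˢ [false, true]) ++ List.map Sum.inr (List.finRange (CC φ) ×ˢ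
        [false, true] ×ˢ List.finRange (MM c φ) ×ˢ List.finRange (TT c)))) := by
    symm
    refine (List.map_congr_left (g := fun j =>
      redRow c W.L φ (lab W φ j) (wd W φ j) (off W φ j) (dl W φ j) (hl W φ j))
      fun j _ => ?_).trans ?_
    · refine hrow j ?_ ?_
      · rcases j with p | p | p
        · exact p.1.2.trans_le (Nat.le_add_right _ _)
        · exact p.1.2.trans_le (Nat.le_add_right _ _)
        · exact Nat.add_lt_add_left p.1.2 _
      · rcases j with p | p | p
        · exact p.1.2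
        · exact p.1.2
        · have h1 : (p.1 : ℕ) < 3 * φ.length := p.1.2
          have h2 := hb _ h1
          simp only [wd, chW, NN, CC]
          split_ifs
          · show 3 * φ.length + (p.1 : ℕ) / 3 < 4 * φ.length
            omega
          · show (lit φ p.1).1 < 4 * φ.length
            omega
    · unfold redTr
      rw [red_range (NN φ), red_range 3, red_range (TT c), red_range (CC φ), red_range (MM c φ), hT]
      conv_rhs => rw [← List.map_id [false, true]]
      simp only [red_sprod_map, List.map_append, List.map_map]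
      congr 2
      · refine List.map_congr_left fun p _ => ?_
        rcases p with ⟨κ, i, _ | _⟩ <;> rfl
      · refine List.map_congr_left fun p _ => ?_
        simp only [Function.comp_apply, Prod.map, id, min_eq_left p.1.2.le]
        rfl
  refine ⟨?_, (hE.sum (hE.sum hE)).equiv _ ?_⟩
  · simp only [key, List.length_map]
    exact hE.card
  · simp only [key, List.map_append, List.map_map]
    rfl

end Crest.Agent.R318
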