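/-
R318/SoundA: counting lemmas and landing points for the soundness proof.  Author: helper58.
-/
import Crest.Agent.R318.Geo

set_option autoImplicit false

namespace Crest.Agent.R318

open Finset

section Generic
variable {J : Type} [Fintype J]

theorem card_cross (σ : J ≃ J) (p : J → Prop) [DecidablePred p] :
    (univ.filter fun j => ¬ p j ∧ p (σ j)).card = (univ.filter fun j => p j ∧ ¬ p (σ j)).card := by
  have h1 : (univ.filter fun j => p (σ j)).card = (univ.filter p).card :=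
    Finset.card_bij (fun j _ => σ j) (by simp) (by simp) fun b hb => ⟨σ.symm b, by simpa using hb, by simp⟩
  have h2 := Finset.card_filter_add_card_filter_not (s := univ.filter fun j => p (σ j)) p
  have h3 := Finset.card_filter_add_card_filter_not (s := univ.filter p) fun j => p (σ j)
  simp only [Finset.filter_filter] at h2 h3
  have e1 : (univ.filter fun j => p (σ j) ∧ p j) = univ.filter fun j => p j ∧ p (σ j) :=
    Finset.filter_congr fun j _ => and_comm
  have e2 : (univ.filter fun j => p (σ j) ∧ ¬ p j) = univ.filter fun j => ¬ p j ∧ p (σ j) :=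
    Finset.filter_congr fun j _ => and_comm
  rw [e1, e2] at h2
  omega

theorem cnt_split (y g : J → ℤ) (x : ℤ) :
    cnt g x + (univ.filter fun j => g j < x ∧ x ≤ y j).card =
      cnt y x + (univ.filter fun j => y j < x ∧ x ≤ g j).card := by
  unfold cnt
  have h2 := Finset.card_filter_add_card_filter_not (s := univ.filter fun j => x ≤ g j)
    fun j => x ≤ y j
  have h3 := Finset.card_filter_add_card_filter_not (s := univ.filter fun j => x ≤ y j)
    fun j => x ≤ g j
  simp only [Finset.filter_filter] at h2 h3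
  have e1 : (univ.filter fun j => x ≤ g j ∧ x ≤ y j) = univ.filter fun j => x ≤ y j ∧ x ≤ g j :=
    Finset.filter_congr fun j _ => and_comm
  have e2 : (univ.filter fun j => x ≤ g j ∧ ¬ x ≤ y j) = univ.filter fun j => y j < x ∧ x ≤ g j :=
    Finset.filter_congr fun j _ => by omega
  have e3 : (univ.filter fun j => x ≤ y j ∧ ¬ x ≤ g j) = univ.filter fun j => g j < x ∧ x ≤ y j :=
    Finset.filter_congr fun j _ => by omega
  rw [e1, e2] at h2
  rw [e3] at h3
  omega

theorem dem_le {y θ s : J → ℤ} (hy : ∀ j, y j ≤ θ j) {x : ℤ} {t : ℕ} (h : cnt θ x ≤ cnt s x + t) :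
    (univ.filter fun j => y j < x ∧ x ≤ θ j).card + (univ.filter fun j => s j < x ∧ x ≤ y j).card ≤
      (univ.filter fun j => y j < x ∧ x ≤ s j).card + t := by
  have h1 := cnt_split y θ x
  have h2 := cnt_split y s x
  have h3 : (univ.filter fun j => θ j < x ∧ x ≤ y j).card = 0 := by
    rw [Finset.card_eq_zero, Finset.filter_eq_empty_iff]
    intro j _
    have := hy j
    omega
  omega

end Generic

variable {c : ℕ} (W : Tower (TT c)) {φ : CnfV ℕ}

theorem wd_fst_of_core {j : Idx c W.n φ} (h : lab W φ j < NN φ) : (wd W φ j).1 = lab W φ j := by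
  rcases j with p | p | p
  · rfl
  · rfl
  · simp only [lab] at h; omega

theorem nu_core (L : ℕ) {l : ℕ} (h : l < NN φ) : nu c L φ l = 6 * ww c L φ * 8 ^ l := if_pos h

theorem nu_chan (L : ℕ) {l : ℕ} (h : NN φ ≤ l) :
    nu c L φ l = 6 * ww c L φ * 8 ^ NN φ + KK c φ ^ (l - NN φ) := if_neg (by omega)

theorem le_nu (L : ℕ) {κ l : ℕ} (h : κ < NN φ) (hl : κ < l) :
    48 * (ww c L φ * 8 ^ κ) ≤ nu c L φ l := by
  have key : ∀ e, κ < e → 48 * (ww c L φ * 8 ^ κ) ≤ 6 * ww c L φ * 8 ^ e := fun e he => by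
    have h1 : 8 ^ (κ + 1) ≤ 8 ^ e := Nat.pow_le_pow_right (by norm_num) he
    have h2 := Nat.mul_le_mul_left (6 * ww c L φ) h1
    rw [pow_succ] at h2
    nlinarith
  unfold nu
  split_ifs with h'
  · exact key l hl
  · exact (key _ h).trans (Nat.le_add_right _ _)

theorem yy_core_le (hb : Bdd φ) {j : Idx c W.n φ} (h : lab W φ j < NN φ) :
    yy W φ j ≤ 12 * (ww c W.L φ * 8 ^ lab W φ j) + 5 * ww c W.L φ := by
  have h1 := (wd_lt W hb j).2
  have h2 := off_add_dl_lt W j
  have h3 := Nat.mul_le_mul_left (ww c W.L φ) (show (wd W φ j).2 ≤ 2 by omega)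
  unfold yy ZZ
  rw [wd_fst_of_core W h]
  nlinarith

/-- A core item with a worse filler lands left of `0`. -/
theorem land_worse_core (hb : Bdd φ) {j f : Idx c W.n φ} (h : lab W φ j < NN φ)
    (hf : lab W φ j < lab W φ f) : PP W φ j + HH W φ f < 0 := by
  have h1 := yy_core_le W hb h
  have h2 := le_nu (c := c) W.L h hf
  have h3 := hl_le W f
  have h4 := L_lt_ww c W.L φ
  have h5 : ww c W.L φ ≤ ww c W.L φ * 8 ^ lab W φ j :=
    Nat.le_mul_of_pos_right _ (Nat.one_le_pow _ _ (by norm_num))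
  unfold PP HH
  rw [nu_core W.L h, mul_assoc]
  generalize ww c W.L φ * 8 ^ lab W φ j = R at *
  push_cast
  omega

/-- A core item never reaches the next core. -/
theorem land_core_lt (hb : Bdd φ) {j : Idx c W.n φ} (f : Idx c W.n φ) (h : lab W φ j < NN φ) :
    PP W φ j + HH W φ f < (24 * (ww c W.L φ * 8 ^ lab W φ j) + 1 : ℕ) := by
  have h1 := yy_core_le W hb h
  have h3 := hl_le W f
  have h5 : ww c W.L φ ≤ ww c W.L φ * 8 ^ lab W φ j :=
    Nat.le_mul_of_pos_right _ (Nat.one_le_pow _ _ (by norm_num))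
  unfold PP HH
  rw [nu_core W.L h, mul_assoc]
  generalize ww c W.L φ * 8 ^ lab W φ j = R at *
  push_cast
  omega

theorem land_same {j f : Idx c W.n φ} (h : lab W φ j = lab W φ f) :
    PP W φ j + HH W φ f = (yy W φ j + hl W φ f : ℕ) := by
  unfold PP HH
  rw [h]
  push_cast
  ring

theorem hl_chan_le {f : Idx c W.n φ} (h : NN φ ≤ lab W φ f) : hl W φ f ≤ 1 := by
  rcases f with p | p | p
  · have := p.1.2; simp only [lab] at h; omega
  · have := p.1.2; simp only [lab] at h; omega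
  · simp only [hl]; split_ifs <;> omega

theorem lab_chan (p : Fin (CC φ) × Bool × Fin (MM c φ) × Fin (TT c)) :
    lab W φ (.inr (.inr p)) = NN φ + p.1 := rfl

theorem yy_chan (p : Fin (CC φ) × Bool × Fin (MM c φ) × Fin (TT c)) :
    yy W φ (.inr (.inr p)) = ZZ (ww c W.L φ) (chW φ p.1 p.2.1).1 (chW φ p.1 p.2.1).2 +
      (W.L + 2 * KK c φ ^ (p.1 : ℕ) * (p.2.2.1 + 1)) := rfl

/-- A channel item with a worse filler lands left of the channel area of its window. -/
theorem land_worse_chan (p : Fin (CC φ) × Bool × Fin (MM c φ) × Fin (TT c)) {f : Idx c W.n φ}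
    (hf : NN φ + p.1 < lab W φ f) :
    PP W φ (.inr (.inr p)) + HH W φ f <
      (ZZ (ww c W.L φ) (chW φ p.1 p.2.1).1 (chW φ p.1 p.2.1).2 + W.L : ℕ) := by
  have h1 := hl_chan_le W (f := f) (by omega)
  have h2 := KK_pow_succ c φ (show (p.1 : ℕ) < lab W φ f - NN φ by omega)
  have h3 := KK_pow_pos c φ p.1
  have h4 := Nat.mul_le_mul_left (2 * KK c φ ^ (p.1 : ℕ)) (show (p.2.2.1 : ℕ) + 1 ≤ MM c φ from p.2.2.1.2)
  have h5 : (2 * MM c φ + 3) * KK c φ ^ (p.1 : ℕ) =
      2 * KK c φ ^ (p.1 : ℕ) * MM c φ + 3 * KK c φ ^ (p.1 : ℕ) := by ring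
  rw [h5] at h2
  clear h5
  unfold PP HH
  rw [nu_chan W.L (l := lab W φ f) (by omega), lab_chan, nu_chan W.L (Nat.le_add_right _ _),
    Nat.add_sub_cancel_left, yy_chan]
  generalize 2 * KK c φ ^ (p.1 : ℕ) * MM c φ = R1 at *
  generalize 2 * KK c φ ^ (p.1 : ℕ) * ((p.2.2.1 : ℕ) + 1) = R2 at *
  generalize KK c φ ^ (p.1 : ℕ) = R3 at *
  generalize KK c φ ^ (lab W φ f - NN φ) = R4 at *
  generalize 6 * ww c W.L φ * 8 ^ NN φ = R5 at *
  push_cast
  omega

/-- A channel item with a channel filler stays within its stage. -/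
theorem land_chan_le (p : Fin (CC φ) × Bool × Fin (MM c φ) × Fin (TT c)) {f : Idx c W.n φ}
    (hf : NN φ ≤ lab W φ f) :
    PP W φ (.inr (.inr p)) + HH W φ f ≤ (yy W φ (.inr (.inr p)) + KK c φ ^ (p.1 : ℕ) : ℕ) := by
  have h1 := hl_chan_le W hf
  have h3 := KK_pow_pos c φ (lab W φ f - NN φ)
  unfold PP HH
  rw [nu_chan W.L hf, lab_chan, nu_chan W.L (Nat.le_add_right _ _), Nat.add_sub_cancel_left]
  generalize KK c φ ^ (p.1 : ℕ) = R3 at *
  generalize KK c φ ^ (lab W φ f - NN φ) = R4 at *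
  generalize 6 * ww c W.L φ * 8 ^ NN φ = R5 at *
  push_cast
  omega

end Crest.Agent.R318
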