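/-
R318/Sound: soundness of the construction.  Author: helper58.
-/
import Crest.Agent.R318.SoundA

set_option autoImplicit false

namespace Crest.Agent.R318

open Finset

variable {c : ℕ} (W : Tower (TT c)) {φ : CnfV ℕ} (σ : Idx c W.n φ ≃ Idx c W.n φ)

/-- The slot condition. -/
def SC : Prop := ∀ x, cnt (TH W φ) x ≤ cnt (fun j => PP W φ j + HH W φ (σ j)) x + 10 * c

/-- Items passing over `x`. -/
def covS (x : ℤ) : Finset (Idx c W.n φ) :=
  univ.filter fun j => (yy W φ j : ℤ) < x ∧ x ≤ PP W φ j + HH W φ (σ j)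

/-- Items falling short of `x`. -/
def shS (x : ℤ) : Finset (Idx c W.n φ) :=
  univ.filter fun j => PP W φ j + HH W φ (σ j) < x ∧ x ≤ (yy W φ j : ℤ)

/-- Demands over `x`. -/
def demS (x : ℤ) : Finset (Idx c W.n φ) :=
  univ.filter fun j => (yy W φ j : ℤ) < x ∧ x ≤ TH W φ j

/-- Fillers of label `< κ` used outside. -/
def impS (κ : ℕ) : Finset (Idx c W.n φ) :=
  univ.filter fun j => ¬ lab W φ j < κ ∧ lab W φ (σ j) < κ

/-- A long strand filler of core `κ`. -/
def IsLong (κ : ℕ) (f : Idx c W.n φ) : Prop :=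
  ∃ p : Fin (NN φ) × Fin 3 × Fin (TT c), f = .inl p ∧ (p.1 : ℕ) = κ ∧ (p.2.1 : ℕ) < ss φ κ

open Classical in
/-- Long strand fillers of core `κ` used in its window `a`. -/
noncomputable def strS (κ a : ℕ) : Finset (Idx c W.n φ) :=
  univ.filter fun j => wd W φ j = (κ, a) ∧ IsLong W κ (σ j)

/-- Channel items of the window passing over `x` with a channel filler. -/
def chS (κ a : ℕ) (x : ℤ) : Finset (Idx c W.n φ) :=
  univ.filter fun j => wd W φ j = (κ, a) ∧ NN φ ≤ lab W φ (σ j) ∧ lab W φ (σ j) ≤ lab W φ j ∧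
    (yy W φ j : ℤ) < x ∧ x ≤ PP W φ j + HH W φ (σ j)

variable {W σ}

theorem sc_dem (h : SC W σ) (x : ℤ) :
    (demS W (φ := φ) x).card + (shS W σ x).card ≤ (covS W σ x).card + 10 * c :=
  dem_le (y := fun j => (yy W φ j : ℤ)) (fun j => by unfold TH; omega) (h x)

theorem card_impS (hb : Bdd φ) (h : SC W σ) {κ : ℕ} (hκ : κ ≤ NN φ) :
    (impS W σ κ).card ≤ 10 * c := by
  have h1 := sc_dem h 0
  have h2 : covS W σ 0 = ∅ := by
    unfold covS
    rw [Finset.filter_eq_empty_iff]
    intro j _
    omega
  have h3 : (univ.filter fun j => lab W φ j < κ ∧ ¬ lab W φ (σ j) < κ) ⊆ shS W σ 0 := by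
    intro j hj
    simp only [shS, mem_filter, mem_univ, true_and] at hj ⊢
    exact ⟨land_worse_core W hb (by omega) (by omega), by omega⟩
  have h4 := Finset.card_le_card h3
  have h5 := card_cross σ fun j => lab W φ j < κ
  rw [h2] at h1
  simp only [card_empty] at h1
  unfold impS
  omega

theorem card_long (κ : ℕ) [DecidablePred (IsLong W (φ := φ) κ)] :
    (univ.filter (IsLong W (φ := φ) κ)).card ≤ ss φ κ * TT c := by
  have : (univ.filter (IsLong W (φ := φ) κ)).card ≤ (range (ss φ κ) ×ˢ range (TT c)).card := by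
    refine Finset.card_le_card_of_injOn
      (fun f => Sum.elim (fun p => ((p.2.1 : ℕ), (p.2.2 : ℕ))) (fun _ => (0, 0)) f) ?_ ?_
    · intro f hf
      obtain ⟨p, rfl, -, h2⟩ := (mem_filter.1 hf).2
      simp [h2]
    · intro f hf f' hf' e
      obtain ⟨p, rfl, h1, -⟩ := (mem_filter.1 hf).2
      obtain ⟨p', rfl, h1', -⟩ := (mem_filter.1 hf').2
      simp only [Sum.elim_inl, Prod.mk.injEq] at e
      congr 1
      exact Prod.ext (Fin.ext (h1.trans h1'.symm)) (Prod.ext (Fin.ext e.1) (Fin.ext e.2))
  simpa using this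

theorem sum_strS (κ : ℕ) :
    (strS W σ κ 0).card + (strS W σ κ 1).card + (strS W σ κ 2).card ≤ ss φ κ * TT c := by
  classical
  have d : ∀ a a', a ≠ a' → Disjoint (strS W σ κ a) (strS W σ κ a') := fun a a' h => by
    rw [Finset.disjoint_left]
    intro j h1 h2
    simp only [strS, mem_filter] at h1 h2
    exact h (congrArg Prod.snd (h1.2.1.symm.trans h2.2.1))
  rw [← Finset.card_union_of_disjoint (d 0 1 (by omega)), ← Finset.card_union_of_disjoint
    (Finset.disjoint_union_left.2 ⟨d 0 2 (by omega), d 1 2 (by omega)⟩)]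
  refine le_trans (Finset.card_le_card_of_injOn σ ?_ σ.injective.injOn) (card_long κ)
  intro j hj
  simp only [strS, coe_union, coe_filter, mem_univ, true_and, Set.mem_union, Set.mem_ofPred_eq] at hj ⊢
  tauto

/-- The decomposition of the coverage of a point of a window. -/
theorem cov_le (hb : Bdd φ) (h : SC W σ) {κ a x : ℕ} (hκ : κ < NN φ) (ha : a < 3)
    (hx1 : ZZ (ww c W.L φ) κ a < x) (hx2 : x ≤ ZZ (ww c W.L φ) κ a + ww c W.L φ)
    (hct : ∀ j, wd W φ j = (κ, a) → lab W φ j = κ → ∀ i, σ j = .inr (.inl (⟨κ, hκ⟩, i, false)) →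
      ¬ (yy W φ j < x ∧ x ≤ yy W φ j + W.len i)) :
    (covS W σ x).card ≤ 20 * c + (strS W σ κ a).card + (chS W σ κ a x).card := by
  have near : ∀ j, yy W φ j < x →
      x < ZZ (ww c W.L φ) (wd W φ j).1 (wd W φ j).2 + 2 * ww c W.L φ → wd W φ j = (κ, a) := by
    intro j h1 h2
    have h3 : ZZ (ww c W.L φ) (wd W φ j).1 (wd W φ j).2 ≤ yy W φ j := Nat.le_add_right _ _
    have := wd_eq_of_near (w := ww c W.L φ) (κ := (wd W φ j).1) (κ' := κ) (wd_lt W hb j).2 ha (by omega) (by omega)
    exact Prod.ext this.1 this.2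
  have sub : covS W σ x ⊆ impS W σ (NN φ) ∪ impS W σ κ ∪ strS W σ κ a ∪ chS W σ κ a x := by
    intro j hj
    simp only [covS, mem_filter, mem_univ, true_and] at hj
    obtain ⟨h1, h2⟩ := hj
    have h1' : yy W φ j < x := by omega
    simp only [mem_union, impS, strS, chS, mem_filter, mem_univ, true_and]
    have ho := off_add_dl_lt W j
    by_cases hc : lab W φ j < NN φ
    · rcases lt_trichotomy (lab W φ j) (lab W φ (σ j)) with hl | hl | hl
      · have := land_worse_core W hb hc hl
        omega
      · rw [land_same W hl] at h2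
        have h3 := hl_le W (σ j)
        have hw : wd W φ j = (κ, a) := near j h1' (by unfold yy at h2; omega)
        have hlab : lab W φ j = κ := by rw [← wd_fst_of_core W hc, hw]
        refine Or.inl (Or.inr ⟨hw, ?_⟩)
        rcases hf : σ j with p | p | p
        · rw [hf] at h2 hl
          have e : (p.1 : ℕ) = κ := hl.symm.trans hlab
          refine ⟨p, rfl, e, ?_⟩
          by_contra hn
          simp only [R318.hl, e, hn, if_false] at h2
          omega
        · exfalso
          rw [hf] at h2 hl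
          have e : (p.1 : ℕ) = κ := hl.symm.trans hlab
          obtain ⟨κ', i, b⟩ := p
          cases b
          · obtain rfl : κ' = ⟨κ, hκ⟩ := Fin.ext e
            refine hct j hw hlab i hf ⟨h1', ?_⟩
            simp only [R318.hl, Bool.false_eq_true, if_false] at h2
            omega
          · simp only [R318.hl, if_true] at h2
            omega
        · rw [hf, lab_chan] at hl
          omega
      · refine Or.inl (Or.inl (Or.inr ?_))
        have h3 := land_core_lt W hb (σ j) hc
        have h4 : ZZ (ww c W.L φ) (wd W φ j).1 (wd W φ j).2 ≤ yy W φ j := Nat.le_add_right _ _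
        rw [wd_fst_of_core W hc] at h4
        have mono : ∀ e e' : ℕ, e < e' → 8 * (ww c W.L φ * 8 ^ e) ≤ ww c W.L φ * 8 ^ e' := by
          intro e e' he
          have h5 : 8 ^ (e + 1) ≤ 8 ^ e' := Nat.pow_le_pow_right (by norm_num) he
          have h6 := Nat.mul_le_mul_left (ww c W.L φ) h5
          rw [pow_succ] at h6
          nlinarith
        have lo : ∀ e b : ℕ, 12 * (ww c W.L φ * 8 ^ e) ≤ ZZ (ww c W.L φ) e b := by
          intro e b
          unfold ZZ
          nlinarith [Nat.zero_le (ww c W.L φ * b)]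
        have hi : ZZ (ww c W.L φ) κ a + ww c W.L φ ≤ 17 * (ww c W.L φ * 8 ^ κ) := by
          have h5 : ww c W.L φ ≤ ww c W.L φ * 8 ^ κ :=
            Nat.le_mul_of_pos_right _ (Nat.one_le_pow _ _ (by norm_num))
          have h6 := Nat.mul_le_mul_left (ww c W.L φ) (show a ≤ 2 by omega)
          unfold ZZ
          nlinarith
        have l1 := lo κ a
        have l2 := lo (lab W φ j) (wd W φ j).2
        have e : lab W φ j = κ := by
          rcases lt_trichotomy (lab W φ j) κ with h5 | h5 | h5
          · have := mono _ _ h5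
            omega
          · exact h5
          · have := mono _ _ h5
            omega
        omega
    · by_cases hc' : lab W φ (σ j) < NN φ
      · exact Or.inl (Or.inl (Or.inl ⟨hc, hc'⟩))
      · rcases j with p | p | p
        · exact absurd p.1.2 hc
        · exact absurd p.1.2 hc
        · have h3 := land_chan_le W p (f := σ (.inr (.inr p))) (by omega)
          have h4 := stage_reach (c := c) W.L p.1.2 p.2.2.1.2
          have h5 := yy_chan W p
          refine Or.inr ⟨near _ h1' (by simp only [wd]; omega), by omega, ?_, h1, h2⟩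
          by_contra hn
          have := land_worse_chan W p (f := σ (.inr (.inr p))) (by rw [lab_chan] at hn; omega)
          omega
  have c1 := card_impS hb h le_rfl
  have c2 := card_impS hb h hκ.le
  have c3 := Finset.card_le_card sub
  have c4 := Finset.card_union_le (impS W σ (NN φ) ∪ impS W σ κ ∪ strS W σ κ a) (chS W σ κ a x)
  have c5 := Finset.card_union_le (impS W σ (NN φ) ∪ impS W σ κ) (strS W σ κ a)
  have c6 := Finset.card_union_le (impS W σ (NN φ)) (impS W σ κ)
  omega

/-- Left of the channel area there is no channel coverage. -/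
theorem chS_eq_empty {κ a x : ℕ} (hx : x ≤ ZZ (ww c W.L φ) κ a + W.L) : chS W σ κ a x = ∅ := by
  unfold chS
  rw [Finset.filter_eq_empty_iff]
  rintro j - ⟨h1, h2, h3, h4, -⟩
  rcases j with p | p | p
  · have := p.1.2
    simp only [lab] at h2 h3
    omega
  · have := p.1.2
    simp only [lab] at h2 h3
    omega
  · have h5 := yy_chan W p
    have h6 : chW φ p.1 p.2.1 = (κ, a) := h1
    rw [h6] at h5
    simp only at h5
    omega

/-- Tower fillers do not leave the tower area. -/
theorem tower_short {κ a x : ℕ} (hκ : κ < NN φ) (hx : ZZ (ww c W.L φ) κ a + W.L ≤ x)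
    (j : Idx c W.n φ) (hw : wd W φ j = (κ, a)) (hl : lab W φ j = κ) (i : Fin W.n) :
    ¬ (yy W φ j < x ∧ x ≤ yy W φ j + W.len i) := by
  unfold yy
  rw [hw]
  rcases j with p | p | p
  · have := W.fit i i false
    simp only [off]
    omega
  · have := W.fit i p.2.1 p.2.2
    simp only [off]
    omega
  · rw [lab_chan] at hl
    omega

/-- The tower forces one of the windows `0`, `1` to be almost completely covered. -/
theorem tower_bit (hb : Bdd φ) (h : SC W σ) {κ : ℕ} (hκ : κ < NN φ) :
    ∃ b : Bool, TT c ≤ 30 * c + (strS W σ κ b.toNat).card := by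
  let pl : Fin W.n → Fin W.n × Bool := fun i =>
    Sum.elim (fun _ => (i, false)) (Sum.elim (fun p => p.2) fun _ => (i, false))
      (σ.symm (.inr (.inl (⟨κ, hκ⟩, i, false))))
  obtain ⟨b, x, h1, h2⟩ := W.gap pl
  refine ⟨b, ?_⟩
  obtain ⟨i₀, hi₀⟩ : (univ.filter fun i => W.pos i b < x ∧ x ≤ W.pos i b + W.len i).Nonempty := by
    rw [← Finset.card_pos]
    unfold TT at h1
    omega
  simp only [mem_filter, mem_univ, true_and] at hi₀
  have hf := W.fit i₀ i₀ b
  have hL := L_lt_ww c W.L φ
  have hbb : b.toNat ≤ 1 := Bool.toNat_le _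
  have h3 := cov_le hb h (x := ZZ (ww c W.L φ) κ b.toNat + x) hκ (a := b.toNat) (by omega) (by omega)
    (by omega) (by
      intro j hw hl i hj
      have e : σ.symm (.inr (.inl (⟨κ, hκ⟩, i, false))) = j := by rw [← hj, Equiv.symm_apply_apply]
      unfold yy
      rw [hw]
      rcases j with p | p | p
      · have := W.len_le i i₀ b
        simp only [off]
        omega
      · have e1 : pl i = p.2 := by simp only [pl, e, Sum.elim_inr, Sum.elim_inl]
        have e2 : p.2.2 = b := by
          have : p.2.2.toNat = b.toNat := congrArg Prod.snd hw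
          revert this
          cases p.2.2 <;> cases b <;> simp
        have := h2 i (by rw [e1, e2])
        rw [e1] at this
        simp only [off, e2]
        omega
      · rw [lab_chan] at hl
        omega)
  rw [chS_eq_empty (by omega)] at h3
  have h4 := sc_dem h ((ZZ (ww c W.L φ) κ b.toNat + x : ℕ) : ℤ)
  have h5 : (univ.filter fun i => W.pos i b < x ∧ x ≤ W.pos i b + W.len i).card ≤
      (demS W (φ := φ) ((ZZ (ww c W.L φ) κ b.toNat + x : ℕ) : ℤ)).card := by
    refine Finset.card_le_card_of_injOn (fun i => .inr (.inl (⟨κ, hκ⟩, i, b))) ?_ ?_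
    · intro i hi
      simp only [coe_filter, mem_univ, true_and, Set.mem_ofPred_eq, demS, TH, yy, wd, off, dl] at hi ⊢
      omega
    · intro i _ i' _ e
      simpa using e
  simp only [card_empty] at h3
  omega

/-- The gate of a window. -/
theorem gate_le (hb : Bdd φ) (h : SC W σ) {κ a : ℕ} (hκ : κ < NN φ) (ha : a < 3) :
    (shS W σ ((ZZ (ww c W.L φ) κ a + W.L : ℕ) : ℤ)).card ≤ 30 * c + 2 * TT c := by
  have hL := L_lt_ww c W.L φ
  have h0 := W.L_pos
  have h3 := cov_le hb h (x := ZZ (ww c W.L φ) κ a + W.L) hκ ha (by omega) (by omega)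
    fun j hw hl i _ => tower_short hκ le_rfl j hw hl i
  rw [chS_eq_empty le_rfl] at h3
  have h4 := sc_dem h ((ZZ (ww c W.L φ) κ a + W.L : ℕ) : ℤ)
  have h5 := sum_strS (W := W) (σ := σ) κ
  have h6 : ss φ κ * TT c ≤ 2 * TT c := Nat.mul_le_mul_right _ (by unfold ss; split_ifs <;> omega)
  have h7 : (strS W σ κ a).card ≤ 2 * TT c := by interval_cases a <;> omega
  simp only [card_empty] at h3
  omega

/-- Few channel fillers are used on a later channel. -/
theorem card_better (hb : Bdd φ) (h : SC W σ) (u : ℕ) :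
    (univ.filter fun j => lab W φ j = NN φ + u ∧ NN φ ≤ lab W φ (σ j) ∧
      lab W φ (σ j) < NN φ + u).card < MM c φ := by
  let p : Idx c W.n φ → Prop := fun j => NN φ ≤ lab W φ j ∧ lab W φ j < NN φ + u
  have h1 : (univ.filter fun j => lab W φ j = NN φ + u ∧ NN φ ≤ lab W φ (σ j) ∧
      lab W φ (σ j) < NN φ + u) ⊆ univ.filter fun j => ¬ p j ∧ p (σ j) := by
    intro j hj
    simp only [mem_filter, mem_univ, true_and, p] at hj ⊢
    omega
  have h2 := card_cross σ p
  have h3 : (univ.filter fun j => p j ∧ ¬ p (σ j)) ⊆ impS W σ (NN φ) ∪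
      (range (NN φ) ×ˢ range 3).biUnion fun v =>
        shS W σ ((ZZ (ww c W.L φ) v.1 v.2 + W.L : ℕ) : ℤ) := by
    intro j hj
    simp only [mem_filter, mem_univ, true_and, p] at hj
    simp only [mem_union, impS, shS, mem_filter, mem_univ, true_and, mem_biUnion, mem_product,
      mem_range]
    by_cases hc : lab W φ (σ j) < NN φ
    · exact Or.inl ⟨by omega, hc⟩
    · refine Or.inr ⟨wd W φ j, wd_lt W hb j, ?_⟩
      rcases j with q | q | q
      · have := q.1.2
        simp only [lab] at hj
        omega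
      · have := q.1.2
        simp only [lab] at hj
        omega
      · rw [lab_chan] at hj
        have h4 := land_worse_chan W q (f := σ (.inr (.inr q))) (by omega)
        have h5 := yy_chan W q
        simp only [wd]
        omega
  have h4 := Finset.card_le_card h1
  have h5 := Finset.card_le_card h3
  have h6 := card_impS hb h le_rfl
  have h7 := Finset.card_biUnion_le_card_mul (range (NN φ) ×ˢ range 3)
    (fun v => shS W σ ((ZZ (ww c W.L φ) v.1 v.2 + W.L : ℕ) : ℤ)) (30 * c + 2 * TT c) fun v hv => by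
      simp only [mem_product, mem_range] at hv
      exact gate_le hb h hv.1 hv.2
  have h8 := Finset.card_union_le (impS W σ (NN φ)) ((range (NN φ) ×ˢ range 3).biUnion fun v =>
        shS W σ ((ZZ (ww c W.L φ) v.1 v.2 + W.L : ℕ) : ℤ))
  rw [card_product, card_range, card_range, mul_comm (NN φ) 3] at h7
  refine lt_of_le_of_lt ((h4.trans_eq h2).trans h5) ?_
  unfold MM
  omega

/-- A filler that can serve a stage of channel `u`. -/
def Good (u : ℕ) (f : Idx c W.n φ) : Prop :=
  NN φ ≤ lab W φ f ∧ (lab W φ f < NN φ + u ∨ (lab W φ f = NN φ + u ∧ hl W φ f ≠ 0))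

instance (u : ℕ) : DecidablePred (Good (W := W) (φ := φ) u) := fun _ => by
  unfold Good; infer_instance

/-- The demand of a stage. -/
theorem stage_le (hb : Bdd φ) (h : SC W σ) (u : Fin (CC φ)) (b : Bool) (m : Fin (MM c φ)) :
    TT c ≤ 30 * c + (strS W σ (chW φ u b).1 (chW φ u b).2).card +
      (univ.filter fun r : Fin (TT c) => Good u (σ (.inr (.inr (u, b, m, r))))).card := by
  obtain ⟨hκ, ha⟩ := chW_lt hb u.2 b
  have h0 := stage_reach (c := c) W.L u.2 m.2
  have hK := KK_pow_pos c φ u
  obtain ⟨x, hx⟩ : ∃ x, x = ZZ (ww c W.L φ) (chW φ u b).1 (chW φ u b).2 +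
    (W.L + 2 * KK c φ ^ (u : ℕ) * (m + 1)) + 1 := ⟨_, rfl⟩
  have h3 := cov_le hb h (x := x) hκ ha (by omega) (by omega)
    fun j hw hl i _ => tower_short hκ (by omega) j hw hl i
  have h4 := sc_dem h (x : ℤ)
  have h5 : TT c ≤ (demS W (φ := φ) (x : ℤ)).card := by
    refine le_trans (by simp) (Finset.card_le_card_of_injOn (s := univ)
      (fun r : Fin (TT c) => .inr (.inr (u, b, m, r))) ?_ ?_)
    · intro r _
      have := yy_chan W (u, b, m, r)
      simp only [coe_filter, mem_univ, true_and, Set.mem_ofPred_eq, demS, TH, dl] at this ⊢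
      omega
    · intro i _ i' _ e
      simpa using e
  have h6 : chS W σ (chW φ u b).1 (chW φ u b).2 x ⊆
      (univ.filter fun r : Fin (TT c) => Good u (σ (.inr (.inr (u, b, m, r))))).image
        fun r => .inr (.inr (u, b, m, r)) := by
    intro j hj
    simp only [chS, mem_filter, mem_univ, true_and] at hj
    obtain ⟨g1, g2, g3, g4, g5⟩ := hj
    rcases j with q | q | ⟨u', b', m', r⟩
    · have := q.1.2
      simp only [lab] at g2 g3
      omega
    · have := q.1.2
      simp only [lab] at g2 g3
      omega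
    · have g6 : chW φ u' b' = chW φ u b := g1
      have g7 := land_chan_le W (u', b', m', r) g2
      have g8 := yy_chan W (u', b', m', r)
      simp only [g6] at g7 g8
      obtain ⟨e1, e2⟩ := stage_eq (c := c) (φ := φ) (u := u) (u' := u') m.2 m'.2 (by omega) (by omega)
      obtain rfl : u = u' := Fin.ext e1
      obtain rfl : m = m' := Fin.ext e2
      obtain rfl : b = b' := by
        have i1 := chW_fst_lt_iff hb u.2 b
        have i2 := chW_fst_lt_iff hb u.2 b'
        rw [g6] at i2
        cases b <;> cases b' <;> simp_all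
      refine mem_image.2 ⟨r, mem_filter.2 ⟨mem_univ _, g2, ?_⟩, rfl⟩
      rw [lab_chan] at g3
      rcases g3.lt_or_eq with g3 | g3
      · exact Or.inl g3
      · refine Or.inr ⟨g3, fun e => ?_⟩
        rw [land_same W (by rw [lab_chan, g3]), e] at g5
        omega
  have h7 := (Finset.card_le_card h6).trans Finset.card_image_le
  omega

theorem card_good (hb : Bdd φ) (h : SC W σ) (u : Fin (CC φ)) :
    ∑ v : Bool × Fin (MM c φ),
      (univ.filter fun r : Fin (TT c) => Good u (σ (.inr (.inr (u, v.1, v.2, r))))).card <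
      MM c φ * TT c + MM c φ := by
  have h1 : ∑ v : Bool × Fin (MM c φ),
      (univ.filter fun r : Fin (TT c) => Good u (σ (.inr (.inr (u, v.1, v.2, r))))).card ≤
      (univ.filter fun j => lab W φ j = NN φ + u ∧ Good u (σ j)).card := by
    rw [← Finset.card_sigma]
    refine Finset.card_le_card_of_injOn (fun q => .inr (.inr (u, q.1.1, q.1.2, q.2))) ?_ ?_
    · intro q hq
      simp only [coe_sigma, coe_univ, coe_filter, mem_univ, true_and, Set.mem_sigma_iff, Set.mem_univ,
        Set.mem_ofPred_eq] at hq ⊢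
      exact ⟨rfl, hq⟩
    · rintro ⟨⟨b, m⟩, r⟩ _ ⟨⟨b', m'⟩, r'⟩ _ e
      simp only [Sum.inr.injEq, Prod.mk.injEq, true_and] at e
      obtain ⟨rfl, rfl, rfl⟩ := e
      rfl
  have h2 : (univ.filter fun j => lab W φ j = NN φ + u ∧ Good u (σ j)) ⊆
      (univ.filter fun j => lab W φ j = NN φ + u ∧ NN φ ≤ lab W φ (σ j) ∧
        lab W φ (σ j) < NN φ + u) ∪
      (univ : Finset (Fin (MM c φ) × Fin (TT c))).image
        fun q => σ.symm (.inr (.inr (u, false, q.1, q.2))) := by
    intro j hj
    simp only [mem_filter, mem_univ, true_and, Good] at hj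
    obtain ⟨g1, g2, g3 | ⟨g3, g4⟩⟩ := hj
    · exact mem_union_left _ (mem_filter.2 ⟨mem_univ _, g1, g2, g3⟩)
    · refine mem_union_right _ (mem_image.2 ?_)
      rcases hf : σ j with q | q | ⟨u', b', m', r⟩
      · have := q.1.2
        rw [hf] at g2
        simp only [lab] at g2
        omega
      · have := q.1.2
        rw [hf] at g2
        simp only [lab] at g2
        omega
      · rw [hf] at g3 g4
        obtain rfl : u' = u := Fin.ext (by rw [lab_chan] at g3; simpa using g3)
        obtain rfl : b' = false := by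
          cases b'
          · rfl
          · simp [hl] at g4
        exact ⟨(m', r), mem_univ _, by rw [← hf, Equiv.symm_apply_apply]⟩
  have h3 := (Finset.card_le_card h2).trans (Finset.card_union_le _ _)
  have h4 := card_better hb h u
  have h5 := Finset.card_image_le (s := (univ : Finset (Fin (MM c φ) × Fin (TT c))))
    (f := fun q => σ.symm (.inr (.inr (u, false, q.1, q.2))))
  simp only [card_univ, Fintype.card_prod, Fintype.card_fin] at h5
  omega

/-- A channel needs more than `TT - 60 c` covering strands on its two sides. -/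
theorem channel_lt (hb : Bdd φ) (h : SC W σ) (u : Fin (CC φ)) :
    TT c ≤ 60 * c + (strS W σ (chW φ u false).1 (chW φ u false).2).card +
      (strS W σ (chW φ u true).1 (chW φ u true).2).card := by
  have h1 := card_good hb h u
  have h2 : ∑ _v : Bool × Fin (MM c φ), TT c ≤ ∑ v : Bool × Fin (MM c φ),
      (30 * c + (strS W σ (chW φ u v.1).1 (chW φ u v.1).2).card +
      (univ.filter fun r : Fin (TT c) => Good u (σ (.inr (.inr (u, v.1, v.2, r))))).card) :=
    Finset.sum_le_sum fun v _ => stage_le hb h u v.1 v.2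
  rw [Finset.sum_add_distrib, Fintype.sum_prod_type
    fun v : Bool × Fin (MM c φ) => 30 * c + (strS W σ (chW φ u v.1).1 (chW φ u v.1).2).card] at h2
  simp only [sum_const, card_univ, Fintype.card_prod, Fintype.card_bool, Fintype.card_fin,
    smul_eq_mul, Fintype.sum_bool] at h2
  by_contra hn
  have hM := MM_pos c φ
  nlinarith

variable (W)

theorem sound (hb : Bdd φ) (σ : Idx c W.n φ ≃ Idx c W.n φ)
    (h : ∀ x, cnt (TH W φ) x ≤ cnt (fun j => PP W φ j + HH W φ (σ j)) x + 10 * c) : Sat φ := by
  have h' : SC W σ := h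
  have hN := CC_le_NN φ
  have bit : ∀ κ, ∃ b : Bool, κ < CC φ → (strS W σ κ (!b).toNat).card ≤ 30 * c := fun κ => by
    by_cases hκ : κ < CC φ
    · obtain ⟨b, hb'⟩ := tower_bit hb h' (κ := κ) (by omega)
      have h1 := sum_strS (W := W) (σ := σ) κ
      rw [ss, if_pos hκ] at h1
      refine ⟨b, fun _ => ?_⟩
      cases b <;> simp only [Bool.toNat_false, Bool.toNat_true, Bool.not_false, Bool.not_true] at * <;>
        omega
    · exact ⟨false, fun h => absurd h hκ⟩
  choose α hα using bit
  refine ⟨α, fun j hj => ?_⟩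
  by_contra hn
  push Not at hn
  have h1 := sum_strS (W := W) (σ := σ) (CC φ + j)
  rw [ss, if_neg (by omega)] at h1
  obtain ⟨a, ha, h2⟩ : ∃ a < 3, 3 * (strS W σ (CC φ + j) a).card ≤ 2 * TT c := by
    by_contra hc
    push Not at hc
    have := hc 0 (by omega)
    have := hc 1 (by omega)
    have := hc 2 (by omega)
    omega
  have hu : 3 * j + a < CC φ := by unfold CC; omega
  have h3 := channel_lt hb h' ⟨3 * j + a, hu⟩
  have e1 : chW φ (3 * j + a) true = (CC φ + j, a) := by
    simp only [chW, if_true]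
    congr 2 <;> omega
  have e2 : chW φ (3 * j + a) false =
      ((lit φ (3 * j + a)).1, (!α (lit φ (3 * j + a)).1).toNat) := by
    simp only [chW, Bool.false_eq_true, if_false]
    have := hn a ha
    congr 2
    revert this
    cases α (lit φ (3 * j + a)).1 <;> cases (lit φ (3 * j + a)).2 <;> simp
  simp only [e1, e2] at h3
  have h4 := hα _ (hb _ hu)
  unfold TT at *
  omega

end Crest.Agent.R318
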