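/-
R318/Tower: existence of towers.

RECIPE (helper58).  Abstract tree on ℕ: root `0`, node `v ≥ 1` has parent `par v = Nat.log 2 (v+1) - 1`
(so the children of `i` are the `2^(i+1)` numbers `2^(i+1) - 1 ≤ v ≤ 2^(i+2) - 2`; they come in pairs
`(2j+1, 2j+2)`), side of `v ≥ 1` = parity of `v`; `gi v = Nat.log 2 (v+1)` (`= par v + 1` for `v ≥ 1`,
`gi 0 = 0`).  `dep b v` = number of nodes `≥ 1` of side `b` on the path root..v (inclusive);
`last b v` = the last node of side `b` on that path (`0` if none); physical parent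
`rho v = last (side v) (par v)`.  Node `i` is ACTIVE iff `dep false i < T ∧ dep true i < T`; the windows
are the nodes `v ≥ 1` with active parent (finitely many: total depth of an active node is `< 2T`, nodes of
depth `≤ r` are `< Q r`, `Q 0 = 1`, `Q (r+1) = 2^(Q r + 1)`); index type = pairs `j` with `par (2j+1)`
active, window of side `b` of pair `j` = the member of `{2j+1, 2j+2}` of side `b`; transport to `Fin n` by
`Fintype.equivFin`.  With a bound `Q` on all windows and `K = 2Q + 4`: `len v = K^(Q - gi v)`,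
`y 0 = 0`, `y v = y (rho v) + 2 v K^(Q - gi (rho v) - 1)`, `L = K^Q` (note `gi (rho v) < gi v ≤ Q`).
Facts: a window lies strictly inside its physical parent (`y (rho v) + 2 K^(Q - gi (rho v) - 1) ≤ y v`,
`y v + 2 K^(Q - gi (rho v) - 1) ≤ y (rho v) + len (rho v)`), distinct windows with the same physical parent
and side start at distance `≥ 2 K^(Q - gi (rho v) - 1)`.  Hence windows of one side containing a point form
a physical chain (`depth`: they are determined by `dep b`, which lies in `1..T`).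
`gap`: walk down the abstract tree from `0`; at an active node `i` there are `2^(i+1)` children with
pairwise disjoint physical subtrees (same side: siblings, else different sides) and at most
`2^0 + ... + 2^i < 2^(i+1)` fillers with `gi ≤ i + 1`, so some child `v` has no filler `f` with
`gi f ≤ gi v` placed in its physical subtree.  Stop at the first inactive node `v` (side `b`,
`dep b v = T`, no physical children), `x = y v + len v`.  If filler `f` placed at `u` (side `b`) covers
`x`, let `z` be the deepest physical ancestor-or-self of `v` with `gi (rho z) < gi f`; the spacing shows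
`u` is in the physical subtree of `z`; if `gi f ≤ gi z` this contradicts the choice of `z` (it is on the
walk), otherwise `z = v`, `u = v`, `len f < len v`, not covered.  (`T = 0`: take `n = 0`.)
Any other construction is welcome; only the statement is frozen.
-/
import Crest.Agent.R318.Defs

set_option autoImplicit false

namespace Crest.Agent.R318

open Finset

namespace Tw

/-- abstract parent -/
def par (v : ℕ) : ℕ := Nat.log 2 ((v + 1) / 2)
/-- generation -/
def gi (v : ℕ) : ℕ := if v = 0 then 0 else par v + 1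
/-- side -/
def side (v : ℕ) : Bool := decide (v % 2 = 0)
/-- the member of side `b` of pair `j` -/
def nd (j : ℕ) (b : Bool) : ℕ := 2 * j + 1 + b.toNat
/-- the parent of pair `j` -/
def lg (j : ℕ) : ℕ := Nat.log 2 (j + 1)

lemma par_lt {v : ℕ} (h : v ≠ 0) : par v < v :=
  (Nat.log_lt_self 2 (by omega : (v + 1) / 2 ≠ 0)).trans_le (by omega)

lemma gi_le (v : ℕ) : gi v ≤ v := by
  unfold gi
  split_ifs with h
  · omega
  · exact par_lt h

lemma nd_ne (j : ℕ) (b : Bool) : nd j b ≠ 0 := by unfold nd; omega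

lemma side_nd (j : ℕ) (b : Bool) : side (nd j b) = b := by
  cases b <;> simp [side, nd] <;> omega

lemma par_nd (j : ℕ) (b : Bool) : par (nd j b) = lg j := by
  unfold par lg nd
  congr 1
  cases b <;> simp <;> omega

lemma gi_nd (j : ℕ) (b : Bool) : gi (nd j b) = lg j + 1 := by
  rw [gi, if_neg (nd_ne j b), par_nd]

/-- the last node of side `b` on the path -/
def last (b : Bool) (v : ℕ) : ℕ :=
  if h : v = 0 then 0 else if side v = b then v else last b (par v)
termination_by v
decreasing_by exact par_lt h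

/-- the number of nodes of side `b` on the path -/
def dep (b : Bool) (v : ℕ) : ℕ :=
  if h : v = 0 then 0 else dep b (par v) + if side v = b then 1 else 0
termination_by v
decreasing_by exact par_lt h

lemma last_zero (b : Bool) : last b 0 = 0 := by rw [last]; simp
lemma dep_zero (b : Bool) : dep b 0 = 0 := by rw [dep]; simp

lemma last_of (b : Bool) {v : ℕ} (h : v ≠ 0) :
    last b v = if side v = b then v else last b (par v) := by rw [last, dif_neg h]

lemma dep_of (b : Bool) {v : ℕ} (h : v ≠ 0) :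
    dep b v = dep b (par v) + if side v = b then 1 else 0 := by rw [dep, dif_neg h]

lemma last_spec (b : Bool) (v : ℕ) :
    last b v ≤ v ∧ dep b (last b v) = dep b v ∧ (last b v ≠ 0 → side (last b v) = b) := by
  induction v using Nat.strong_induction_on with
  | _ v ih =>
    by_cases h : v = 0
    · subst h; simp [last_zero]
    · obtain ⟨h1, h2, h3⟩ := ih _ (par_lt h)
      rw [last_of b h]
      split_ifs with hs
      · exact ⟨le_rfl, rfl, fun _ => hs⟩
      · exact ⟨h1.trans (par_lt h).le, by rw [h2, dep_of b h, if_neg hs, add_zero], h3⟩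

lemma dep_tot {v : ℕ} (h : v ≠ 0) :
    dep false v + dep true v = dep false (par v) + dep true (par v) + 1 := by
  rw [dep_of false h, dep_of true h]
  cases side v <;> simp <;> omega

lemma exists_bound (r : ℕ) : ∃ Q, ∀ v, dep false v + dep true v ≤ r → v ≤ Q := by
  induction r with
  | zero =>
    refine ⟨0, fun v hv => ?_⟩
    by_contra h
    rw [dep_tot (by omega)] at hv
    omega
  | succ r ih =>
    obtain ⟨Q, hQ⟩ := ih
    refine ⟨2 * 2 ^ (Q + 1), fun v hv => ?_⟩
    by_cases h : v = 0
    · omega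
    · rw [dep_tot h] at hv
      have h1 := hQ (par v) (by omega)
      have h2 := Nat.lt_pow_succ_log_self (by norm_num : 1 < 2) ((v + 1) / 2)
      have h3 : 2 ^ (par v + 1) ≤ 2 ^ (Q + 1) := Nat.pow_le_pow_right (by norm_num) (by omega)
      change _ < 2 ^ (par v + 1) at h2
      omega

/-- physical parent -/
def rho (v : ℕ) : ℕ := last (side v) (par v)

lemma rho_lt {v : ℕ} (h : v ≠ 0) : rho v < v := (last_spec _ _).1.trans_lt (par_lt h)

lemma gi_rho {v : ℕ} (h : v ≠ 0) : gi (rho v) < gi v := by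
  have h1 := gi_le (rho v)
  have h2 : rho v ≤ par v := (last_spec _ _).1
  rw [gi.eq_def v, if_neg h]
  omega

lemma dep_rho {v : ℕ} (h : v ≠ 0) : dep (side v) v = dep (side v) (rho v) + 1 := by
  rw [dep_of _ h, if_pos rfl, rho, (last_spec _ _).2.1]

/-- starting points -/
def yy (K Q : ℕ) (v : ℕ) : ℕ :=
  if h : v = 0 then K ^ Q else yy K Q (rho v) + 2 * v * K ^ (Q - gi (rho v) - 1)
termination_by v
decreasing_by exact rho_lt h

/-- lengths -/
def ln (K Q : ℕ) (v : ℕ) : ℕ := K ^ (Q - gi v)

/-- spacing -/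
def sc (K Q : ℕ) (v : ℕ) : ℕ := K ^ (Q - gi (rho v) - 1)

variable {K Q : ℕ}

lemma yy_zero : yy K Q 0 = K ^ Q := by rw [yy]; simp

lemma yy_of {v : ℕ} (h : v ≠ 0) : yy K Q v = yy K Q (rho v) + 2 * v * sc K Q v := by
  rw [yy, dif_neg h, sc]

lemma ln_pos (hK : 2 * Q + 2 ≤ K) (v : ℕ) : 0 < ln K Q v := pow_pos (by omega) _

lemma sc_pos (hK : 2 * Q + 2 ≤ K) (v : ℕ) : 0 < sc K Q v := pow_pos (by omega) _

lemma ln_le_sc (hK : 2 * Q + 2 ≤ K) {v w : ℕ} (h : gi (rho v) < gi w) : ln K Q w ≤ sc K Q v :=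
  Nat.pow_le_pow_right (by omega) (by omega)

lemma nest (hK : 2 * Q + 2 ≤ K) {v : ℕ} (h : v ≠ 0) (hv : v ≤ Q) :
    yy K Q (rho v) < yy K Q v ∧ yy K Q v + ln K Q v ≤ yy K Q (rho v) + ln K Q (rho v) := by
  have h1 := gi_rho h
  have h2 := gi_le v
  have h3 := ln_le_sc hK h1
  have h4 := sc_pos hK v
  have h5 : ln K Q (rho v) = K * sc K Q v := by
    rw [ln, sc, ← pow_succ']
    congr 1
    omega
  rw [yy_of h, h5]
  have h6 : (2 * v + 1) * sc K Q v ≤ K * sc K Q v := Nat.mul_le_mul_right _ (by omega)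
  have h7 : 0 < 2 * v * sc K Q v := Nat.mul_pos (by omega) h4
  constructor
  · omega
  · nlinarith

lemma range_yy (hK : 2 * Q + 2 ≤ K) {v : ℕ} (hv : v ≤ Q) :
    K ^ Q ≤ yy K Q v ∧ yy K Q v + ln K Q v ≤ 2 * K ^ Q := by
  induction v using Nat.strong_induction_on with
  | _ v ih =>
    by_cases h : v = 0
    · subst h
      rw [yy_zero, ln, gi, if_pos rfl, Nat.sub_zero]
      omega
    · obtain ⟨h1, h2⟩ := ih _ (rho_lt h) ((rho_lt h).le.trans hv)
      obtain ⟨h3, h4⟩ := nest hK h hv
      omega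

/-- spacing of windows with the same physical parent -/
lemma space (hK : 2 * Q + 2 ≤ K) {u v p : ℕ} (hu : u ≠ 0) (hv : v ≠ 0) (h : rho u = rho v)
    (h1 : yy K Q u < p + sc K Q u) (h2 : p < yy K Q u + ln K Q u)
    (h3 : yy K Q v < p + sc K Q v) (h4 : p < yy K Q v + ln K Q v) : u = v := by
  have a1 := ln_le_sc hK (gi_rho hu)
  have a2 := ln_le_sc hK (gi_rho hv)
  have a3 : sc K Q u = sc K Q v := by rw [sc, sc, h]
  rw [yy_of hu] at h1 h2
  rw [yy_of hv] at h3 h4
  rw [h, a3] at h1 h2
  rw [a3] at a1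
  by_contra hne
  rcases Nat.lt_or_gt_of_ne hne with e | e
  · have := Nat.mul_le_mul_right (sc K Q v) (show 2 * u + 2 ≤ 2 * v by omega)
    nlinarith
  · have := Nat.mul_le_mul_right (sc K Q v) (show 2 * v + 2 ≤ 2 * u by omega)
    nlinarith

/-- windows of one side and one depth are disjoint -/
lemma disj (hK : 2 * Q + 2 ≤ K) (b : Bool) (x u : ℕ) : ∀ v, u ≠ 0 → v ≠ 0 → u ≤ Q → v ≤ Q →
    side u = b → side v = b → dep b u = dep b v → yy K Q u < x → x ≤ yy K Q u + ln K Q u →
    yy K Q v < x → x ≤ yy K Q v + ln K Q v → u = v := by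
  induction u using Nat.strong_induction_on with
  | _ u ih =>
    intro v hu hv huQ hvQ su sv hd h1 h2 h3 h4
    have a1 := dep_rho hu
    have a2 := dep_rho hv
    rw [su] at a1
    rw [sv] at a2
    have a3 : rho u ≠ 0 → side (rho u) = b := fun h => su ▸ (last_spec _ _).2.2 h
    have a4 : rho v ≠ 0 → side (rho v) = b := fun h => sv ▸ (last_spec _ _).2.2 h
    have a5 : rho u = rho v := by
      by_cases e1 : rho u = 0 <;> by_cases e2 : rho v = 0
      · rw [e1, e2]
      · have := dep_rho e2
        rw [a4 e2] at this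
        rw [e1, dep_zero] at a1
        omega
      · have := dep_rho e1
        rw [a3 e1] at this
        rw [e2, dep_zero] at a2
        omega
      · obtain ⟨b1, b2⟩ := nest hK hu huQ
        obtain ⟨b3, b4⟩ := nest hK hv hvQ
        exact ih _ (rho_lt hu) _ e1 e2 ((rho_lt hu).le.trans huQ) ((rho_lt hv).le.trans hvQ)
          (a3 e1) (a4 e2) (by omega) (by omega) (by omega) (by omega) (by omega)
    have c1 := sc_pos hK u
    have c2 := sc_pos hK v
    exact space hK (p := x - 1) hu hv a5 (by omega) (by omega) (by omega) (by omega)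

/-- the data of the construction -/
structure Dat (T K Q : ℕ) (J : Finset ℕ) : Prop where
  hK : 2 * Q + 2 ≤ K
  hQ : ∀ v, dep false v + dep true v ≤ 2 * T → v ≤ Q
  hJ : ∀ j, j ∈ J ↔ dep false (lg j) < T ∧ dep true (lg j) < T

variable {T : ℕ} {J : Finset ℕ}

lemma Dat.nd_le (h : Dat T K Q J) {j : ℕ} (hj : j ∈ J) (b : Bool) : nd j b ≤ Q := by
  obtain ⟨h1, h2⟩ := (h.hJ j).1 hj
  refine h.hQ _ ?_
  rw [dep_tot (nd_ne j b), par_nd]
  omega

lemma ln_nd (j : ℕ) (b : Bool) : ln K Q (nd j b) = ln K Q (nd j false) := by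
  rw [ln, ln, gi_nd, gi_nd]

lemma Dat.depth (h : Dat T K Q J) (b : Bool) (x : ℕ) :
    (J.filter fun j => yy K Q (nd j b) < x ∧ x ≤ yy K Q (nd j b) + ln K Q (nd j false)).card ≤ T := by
  refine (card_le_card_of_injOn (t := range T) (fun j => dep b (lg j)) (fun j hj => ?_)
    fun j hj j' hj' e => ?_).trans (card_range T).le
  · have := (h.hJ j).1 (mem_filter.1 hj).1
    simp only [coe_range, Set.mem_Iio]
    cases b
    · exact this.1
    · exact this.2
  · obtain ⟨h1, h2, h3⟩ := mem_filter.1 hj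
    obtain ⟨h4, h5, h6⟩ := mem_filter.1 hj'
    rw [← ln_nd j b] at h3
    rw [← ln_nd j' b] at h6
    have := disj h.hK b x (nd j b) (nd j' b) (nd_ne _ _) (nd_ne _ _) (h.nd_le h1 b) (h.nd_le h4 b)
      (side_nd _ _) (side_nd _ _) (by
        rw [dep_of b (nd_ne j b), dep_of b (nd_ne j' b), par_nd, par_nd, side_nd, side_nd]
        exact congrArg (· + _) e) h2 h3 h5 h6
    unfold nd at this
    omega

/-- the invariant of the walk; filler `f` is placed at `p f` on side `sd f` -/
structure Inv (T K Q : ℕ) (J : Finset ℕ) (p : ℕ → ℕ) (sd : ℕ → Bool) (i : ℕ) : Prop where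
  le : ∀ b, dep b i ≤ T
  free : ∀ b, ∀ f ∈ J, sd f = b → gi (nd f false) ≤ gi (last b i) →
    p f < yy K Q (last b i) + ln K Q (last b i) → p f + ln K Q (nd f false) ≤ yy K Q (last b i)
  chain : ∀ b, ∃ C ⊆ J, dep b i ≤ C.card ∧ ∀ j ∈ C, yy K Q (nd j b) ≤ yy K Q (last b i) ∧
    yy K Q (last b i) + ln K Q (last b i) ≤ yy K Q (nd j b) + ln K Q (nd j false)

variable {p : ℕ → ℕ} {sd : ℕ → Bool}

lemma inv_zero : Inv T K Q J p sd 0 where
  le b := by rw [dep_zero]; omega
  free b f _ _ h := by
    rw [last_zero, gi_nd, gi, if_pos rfl] at h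
    omega
  chain b := ⟨∅, empty_subset _, by rw [dep_zero]; omega, by simp⟩

lemma lg_eq {i j : ℕ} (h : j ∈ Ico (2 ^ i - 1) (2 ^ (i + 1) - 1)) : lg j = i := by
  obtain ⟨h1, h2⟩ := mem_Ico.1 h
  exact Nat.log_eq_of_pow_le_of_lt_pow (by omega) (by omega)

/-- a child that is not hit by a long filler -/
lemma Dat.child (h : Dat T K Q J) (p : ℕ → ℕ) (sd : ℕ → Bool) (i : ℕ) :
    ∃ j b, lg j = i ∧ ∀ f, lg f ≤ i → sd f = b → yy K Q (nd j b) < p f + sc K Q (nd j b) →
      yy K Q (nd j b) + ln K Q (nd j b) ≤ p f := by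
  by_contra hno
  push Not at hno
  have key : ∀ c : ℕ × Bool, ∃ f, lg c.1 = i → lg f ≤ i ∧ sd f = c.2 ∧
      yy K Q (nd c.1 c.2) < p f + sc K Q (nd c.1 c.2) ∧
        p f < yy K Q (nd c.1 c.2) + ln K Q (nd c.1 c.2) := fun c => by
    by_cases hc : lg c.1 = i
    · obtain ⟨f, hf⟩ := hno c.1 c.2 hc
      exact ⟨f, fun _ => hf⟩
    · exact ⟨0, fun e => absurd e hc⟩
  choose F hF using key
  have h1 := card_le_card_of_injOn (s := Ico (2 ^ i - 1) (2 ^ (i + 1) - 1) ×ˢ (univ : Finset Bool))
    (t := range (2 ^ (i + 1) - 1)) F (fun c hc => by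
      have a1 := (hF c (lg_eq (mem_product.1 hc).1)).1
      have a2 := Nat.lt_pow_succ_log_self (by norm_num : 1 < 2) (F c + 1)
      have a3 : 2 ^ (lg (F c) + 1) ≤ 2 ^ (i + 1) := Nat.pow_le_pow_right (by norm_num) (by omega)
      change _ < 2 ^ (lg (F c) + 1) at a2
      simp only [coe_range, Set.mem_Iio]
      omega) (fun c hc c' hc' e => by
      have l1 := lg_eq (mem_product.1 hc).1
      have l2 := lg_eq (mem_product.1 hc').1
      obtain ⟨-, a1, a2, a3⟩ := hF c l1
      obtain ⟨-, b1, b2, b3⟩ := hF c' l2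
      rw [← e] at b1 b2 b3
      have e2 : c.2 = c'.2 := a1.symm.trans b1
      have := space h.hK (nd_ne _ _) (nd_ne _ _)
        (by rw [rho, rho, side_nd, side_nd, par_nd, par_nd, l1, l2, e2]) a2 a3 b2 b3
      rw [e2] at this
      unfold nd at this
      exact Prod.ext (by omega) e2)
  rw [card_product, Nat.card_Ico, card_range, card_univ, Fintype.card_bool, pow_succ] at h1
  have : 0 < 2 ^ i := by positivity
  omega

lemma Dat.step (h : Dat T K Q J) {i : ℕ} (hi : Inv T K Q J p sd i) (h0 : dep false i < T)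
    (h1 : dep true i < T) :
    ∃ v, Inv T K Q J p sd v ∧ dep false v + dep true v = dep false i + dep true i + 1 := by
  obtain ⟨j, b, rfl, hj⟩ := h.child p sd i
  have hJ : j ∈ J := (h.hJ j).2 ⟨h0, h1⟩
  have hlt : ∀ b, dep b (lg j) < T := fun b => by cases b <;> assumption
  have e1 : ∀ b', dep b' (nd j b) = dep b' (lg j) + if b = b' then 1 else 0 := fun b' => by
    rw [dep_of b' (nd_ne j b), par_nd, side_nd]
  have e2 : ∀ b', last b' (nd j b) = if b = b' then nd j b else last b' (lg j) := fun b' => by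
    rw [last_of b' (nd_ne j b), par_nd, side_nd]
  have e3 : rho (nd j b) = last b (lg j) := by rw [rho, side_nd, par_nd]
  obtain ⟨n1, n2⟩ := nest h.hK (nd_ne j b) (h.nd_le hJ b)
  refine ⟨nd j b, ⟨fun b' => ?_, fun b' f hf hs => ?_, fun b' => ?_⟩,
    by rw [dep_tot (nd_ne j b), par_nd]⟩
  · have := hlt b'
    rw [e1]
    split_ifs <;> omega
  · rw [e2]
    split_ifs with hb
    · subst hb
      intro a1 a2
      have a3 := ln_pos h.hK (nd j b)
      rcases le_or_gt (gi (nd f false)) (gi (rho (nd j b))) with c | c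
      · have := hi.free b f hf hs
        rw [← e3] at this
        have := this c (by omega)
        omega
      · have a4 := ln_le_sc h.hK c
        rw [gi_nd, gi_nd] at a1
        have := hj f (by omega) hs
        omega
    · exact hi.free b' f hf hs
  · obtain ⟨C, c1, c2, c3⟩ := hi.chain b'
    rw [e1, e2]
    split_ifs with hb
    · subst hb
      rw [← e3] at c3
      have hn : j ∉ C := fun hj => by
        have := (c3 j hj).1
        omega
      refine ⟨insert j C, insert_subset hJ c1, by rw [card_insert_of_notMem hn]; omega,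
        fun k hk => ?_⟩
      rcases mem_insert.1 hk with rfl | hk
      · exact ⟨le_rfl, by rw [ln_nd]⟩
      · have := c3 k hk
        omega
    · exact ⟨C, c1, c2, c3⟩

lemma Dat.walk (h : Dat T K Q J) (p : ℕ → ℕ) (sd : ℕ → Bool) :
    ∃ i b, Inv T K Q J p sd i ∧ dep b i = T := by
  have key : ∀ r, ∃ i, Inv T K Q J p sd i ∧
      (dep false i + dep true i = r ∨ dep false i = T ∨ dep true i = T) := by
    intro r
    induction r with
    | zero => exact ⟨0, inv_zero, Or.inl (by rw [dep_zero, dep_zero])⟩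
    | succ r ih =>
      obtain ⟨i, hi, h1⟩ := ih
      by_cases h2 : dep false i = T ∨ dep true i = T
      · exact ⟨i, hi, Or.inr h2⟩
      · have a1 := hi.le false
        have a2 := hi.le true
        obtain ⟨v, hv, e⟩ := h.step hi (by omega) (by omega)
        exact ⟨v, hv, Or.inl (by omega)⟩
  obtain ⟨i, hi, h1⟩ := key (2 * T)
  have a1 := hi.le false
  have a2 := hi.le true
  by_cases h2 : dep false i = T
  · exact ⟨i, false, hi, h2⟩
  · exact ⟨i, true, hi, by omega⟩

lemma Dat.gap (h : Dat T K Q J) (w : ℕ → ℕ) (sd : ℕ → Bool) (hw : ∀ f ∈ J, w f ∈ J) :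
    ∃ b x, T ≤ (J.filter fun j =>
        yy K Q (nd j b) < x ∧ x ≤ yy K Q (nd j b) + ln K Q (nd j false)).card ∧
      ∀ f ∈ J, sd f = b →
        ¬ (yy K Q (nd (w f) b) < x ∧ x ≤ yy K Q (nd (w f) b) + ln K Q (nd f false)) := by
  obtain ⟨i, b, hi, e⟩ := h.walk (fun f => yy K Q (nd (w f) (sd f))) sd
  obtain ⟨C, c1, c2, c3⟩ := hi.chain b
  have a0 := ln_pos h.hK (last b i)
  refine ⟨b, yy K Q (last b i) + ln K Q (last b i), ?_, fun f hf hs ⟨h1, h2⟩ => ?_⟩
  · refine le_trans (by omega) (card_le_card (s := C) fun j hj => mem_filter.2 ⟨c1 hj, ?_⟩)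
    have := c3 j hj
    omega
  · rcases le_or_gt (gi (nd f false)) (gi (last b i)) with c | c
    · have := hi.free b f hf hs c
      simp only [hs] at this
      have := this h1
      omega
    · have a1 : ln K Q (nd f false) < ln K Q (last b i) := by
        have := (gi_le _).trans (h.nd_le hf false)
        exact Nat.pow_lt_pow_right (by have := h.hK; omega) (by omega)
      have hn : w f ∉ C := fun hj => by
        have := (c3 _ hj).1
        omega
      have a2 := h.depth b (yy K Q (nd (w f) b) + 1)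
      have a3 := ln_pos h.hK (nd (w f) false)
      refine absurd ((card_le_card (s := insert (w f) C) fun j hj => mem_filter.2 ?_).trans a2) ?_
      · rcases mem_insert.1 hj with rfl | hj
        · exact ⟨hw f hf, by omega, by omega⟩
        · have := c3 j hj
          exact ⟨c1 hj, by omega, by omega⟩
      · rw [card_insert_of_notMem hn]
        omega

lemma exists_dat (T : ℕ) : ∃ K Q J, Dat T K Q J := by
  obtain ⟨Q, hQ⟩ := exists_bound (2 * T)
  refine ⟨2 * Q + 2, Q, (range (Q + 1)).filter fun j => dep false (lg j) < T ∧ dep true (lg j) < T,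
    le_rfl, hQ, fun j => ⟨fun hj => (mem_filter.1 hj).2, fun hj => mem_filter.2 ⟨?_, hj⟩⟩⟩
  have := hQ (nd j false) (by rw [dep_tot (nd_ne j false), par_nd]; omega)
  unfold nd at this
  exact mem_range.2 (by omega)

lemma card_transport (J : Finset ℕ) (P : ℕ → Prop) [DecidablePred P] :
    (univ.filter fun i : Fin J.card => P (J.equivFin.symm i)).card = (J.filter P).card := by
  refine card_bij (fun i _ => (J.equivFin.symm i : ℕ))
    (fun i hi => mem_filter.2 ⟨(J.equivFin.symm i).2, (mem_filter.1 hi).2⟩)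
    (fun i _ i' _ e => J.equivFin.symm.injective (Subtype.ext e)) fun j hj => ?_
  obtain ⟨h1, h2⟩ := mem_filter.1 hj
  exact ⟨J.equivFin ⟨j, h1⟩, mem_filter.2 ⟨mem_univ _, by simpa using h2⟩, by simp⟩

end Tw

open Tw in
theorem exists_tower (T : ℕ) : Nonempty (Tower T) := by
  obtain ⟨K, Q, J, h⟩ := exists_dat T
  have hr : ∀ (i : Fin J.card) (b : Bool), K ^ Q ≤ Tw.yy K Q (nd (J.equivFin.symm i) b) ∧
      Tw.yy K Q (nd (J.equivFin.symm i) b) + ln K Q (nd (J.equivFin.symm i) b) ≤ 2 * K ^ Q :=
    fun i b => range_yy h.hK (h.nd_le (J.equivFin.symm i).2 b)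
  refine ⟨⟨J.card, 3 * K ^ Q + 1, fun i => ln K Q (nd (J.equivFin.symm i) false),
    fun i b => Tw.yy K Q (nd (J.equivFin.symm i) b), by omega, fun i j b => ?_, fun i j b => ?_,
    fun b x => ?_, fun pl => ?_⟩⟩
  · have a1 := hr i false
    have a2 := hr j b
    omega
  · have a1 := hr i false
    have a2 := hr j b
    omega
  · exact (card_transport J fun j =>
      Tw.yy K Q (nd j b) < x ∧ x ≤ Tw.yy K Q (nd j b) + ln K Q (nd j false)).le.trans (h.depth b x)
  · obtain ⟨b, x, h1, h2⟩ := h.gap
      (fun f => if hf : f ∈ J then (J.equivFin.symm (pl (J.equivFin ⟨f, hf⟩)).1 : ℕ) else 0)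
      (fun f => if hf : f ∈ J then (pl (J.equivFin ⟨f, hf⟩)).2 else false)
      (fun f hf => by rw [dif_pos hf]; exact Subtype.property _)
    refine ⟨b, x, h1.trans (card_transport J fun j =>
      Tw.yy K Q (nd j b) < x ∧ x ≤ Tw.yy K Q (nd j b) + ln K Q (nd j false)).ge, fun i hi => ?_⟩
    have := h2 _ (J.equivFin.symm i).2
    simp only [dif_pos (J.equivFin.symm i).2, Subtype.coe_eta, Equiv.apply_symm_apply] at this
    exact this hi

end Crest.Agent.R318
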