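/-
R318/Types: from a family of items to distinct sizes with multiplicities (the form of S0492).

RECIPE (helper58).  `m` = number of distinct values of `a`, `σ` an enumeration of `univ.image a`
(`Finset.equivFin`), `mult j` = size of the fibre, `e : (Σ j, Fin (mult j)) ≃ ι` with `a (e p) = σ p.1`
(`Equiv.sigmaFiberEquiv`, `Equiv.sigmaCongrRight`, `Fintype.equivFin`).  Copy LP: transport `y` along
`e` (`Equiv.finsetCongr`); lower bound: a pattern holds at most one item `> 1/2`, double count.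
Type LP: `z = ∑ H, Finsupp.single (fun j => #{p ∈ H | p.1 = j}) (y H)` (or `Finsupp.mapDomain`); lower
bound: a configuration has `∑_{σ j > 1/2} c j ≤ 1` and `∑_{σ j > 1/2} mult j = B`.
Packing: `packsInto_equiv`.
-/
import Crest.Agent.R318.Basic

set_option autoImplicit false

namespace Crest.Agent.R318

open Finset Crest.BinPacking

/-- transport of a solution of the copy program -/
theorem types_copy_equiv {κ ι : Type} [Fintype κ] [DecidableEq κ] [Fintype ι] [DecidableEq ι]
    (e : κ ≃ ι) {a : ι → ℚ} {y : Finset ι → ℝ} (hy : CopyLPFeasible a y) :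
    CopyLPFeasible (fun k => a (e k)) (fun H => y (e.finsetCongr H)) ∧
      copyLPCost (fun H => y (e.finsetCongr H)) = copyLPCost y := by
  refine ⟨⟨fun H => hy.1 _, fun H h => ?_, fun k => ?_⟩, ?_⟩
  · have := hy.2.1 _ h
    rwa [Equiv.finsetCongr_apply, sum_map] at this
  · refine le_of_le_of_eq (hy.2.2 (e k)) ?_
    symm
    refine sum_equiv e.finsetCongr (fun H => ?_) fun _ _ => rfl
    simp
  · exact Equiv.sum_comp e.finsetCongr y

/-- a pattern holds at most one item of size `> 1/2` -/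
theorem types_big_le_one {ι : Type} (s : Finset ι) {a : ι → ℚ} (c : ι → ℕ) (ha : ∀ i, 0 ≤ a i)
    (h : ∑ i ∈ s, a i * (c i : ℚ) ≤ 1) : ∑ i ∈ s.filter (fun i => 1 / 2 < a i), c i ≤ 1 := by
  by_contra hc
  have h2 : 2 ≤ ∑ i ∈ s.filter (fun i => 1 / 2 < a i), c i := by omega
  obtain ⟨j, hj, hj0⟩ := exists_ne_zero_of_sum_ne_zero
    (by omega : ∑ i ∈ s.filter (fun i => 1 / 2 < a i), c i ≠ 0)
  have h3 : ∑ i ∈ s.filter (fun i => 1 / 2 < a i), (1 / 2 : ℚ) * (c i : ℚ) <
      ∑ i ∈ s.filter (fun i => 1 / 2 < a i), a i * (c i : ℚ) := by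
    refine sum_lt_sum (fun i hi => mul_le_mul_of_nonneg_right (mem_filter.1 hi).2.le
      (Nat.cast_nonneg _)) ⟨j, hj, mul_lt_mul_of_pos_right (mem_filter.1 hj).2 ?_⟩
    exact_mod_cast Nat.pos_of_ne_zero hj0
  have h4 : ∑ i ∈ s.filter (fun i => 1 / 2 < a i), a i * (c i : ℚ) ≤ ∑ i ∈ s, a i * (c i : ℚ) :=
    sum_le_sum_of_subset_of_nonneg (filter_subset _ _) fun i _ _ =>
      mul_nonneg (ha i) (Nat.cast_nonneg _)
  rw [← mul_sum] at h3
  have h5 : (2 : ℚ) ≤ ∑ i ∈ s.filter (fun i => 1 / 2 < a i), (c i : ℚ) := by exact_mod_cast h2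
  linarith

/-- lower bound for the copy program -/
theorem types_copy_lower {ι : Type} [Fintype ι] [DecidableEq ι] {a : ι → ℚ} (ha : ∀ i, 0 ≤ a i)
    {y : Finset ι → ℝ} (hy : CopyLPFeasible a y) :
    ((univ.filter fun i => 1 / 2 < a i).card : ℝ) ≤ copyLPCost y := by
  calc ((univ.filter fun i => 1 / 2 < a i).card : ℝ)
      = ∑ _i ∈ univ.filter fun i => 1 / 2 < a i, (1 : ℝ) := by simp
    _ ≤ ∑ i ∈ univ.filter fun i => 1 / 2 < a i, ∑ H : Finset ι, if i ∈ H then y H else 0 :=
        sum_le_sum fun i _ => by rw [← sum_filter]; exact hy.2.2 i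
    _ = ∑ H : Finset ι, ((H.filter fun i => 1 / 2 < a i).card : ℝ) * y H := by
        rw [sum_comm]
        refine sum_congr rfl fun H _ => ?_
        rw [← sum_filter, sum_const, nsmul_eq_mul]
        congr 3
        ext i
        simp [and_comm]
    _ ≤ ∑ H, y H := by
        refine sum_le_sum fun H _ => ?_
        by_cases h0 : y H = 0
        · simp [h0]
        · have h1 := types_big_le_one H (fun _ => 1) ha (by simpa using hy.2.1 H h0)
          rw [← card_eq_sum_ones] at h1
          exact mul_le_of_le_one_left (hy.1 H) (by exact_mod_cast h1)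

/-- lower bound for the type program -/
theorem types_type_lower {m : ℕ} {σ : Fin m → ℚ} (hσ : ∀ j, 0 ≤ σ j) {mult : Fin m → ℕ}
    {z : (Fin m → ℕ) →₀ ℝ} (hz : TypeLPFeasible σ mult z) :
    ((∑ j ∈ univ.filter (fun j => 1 / 2 < σ j), mult j : ℕ) : ℝ) ≤ typeLPCost z := by
  push_cast
  calc ∑ j ∈ univ.filter (fun j => 1 / 2 < σ j), (mult j : ℝ)
      ≤ ∑ j ∈ univ.filter (fun j => 1 / 2 < σ j), ∑ c ∈ z.support, (c j : ℝ) * z c :=
        sum_le_sum fun j _ => hz.2.2 j
    _ = ∑ c ∈ z.support, ((∑ j ∈ univ.filter (fun j => 1 / 2 < σ j), c j : ℕ) : ℝ) * z c := by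
        rw [sum_comm]
        refine sum_congr rfl fun c _ => ?_
        push_cast
        rw [sum_mul]
    _ ≤ ∑ c ∈ z.support, z c := by
        refine sum_le_sum fun c hc => mul_le_of_le_one_left (hz.1 c) ?_
        exact_mod_cast types_big_le_one univ c hσ (hz.2.1 c hc)

/-- a solution of the copy program gives a solution of the type program -/
theorem types_type_of_copy {m : ℕ} {σ : Fin m → ℚ} {mult : Fin m → ℕ}
    {y : Finset ((j : Fin m) × Fin (mult j)) → ℝ} (hy : CopyLPFeasible (fun i => σ i.1) y) :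
    ∃ z, TypeLPFeasible σ mult z ∧ typeLPCost z = copyLPCost y := by
  set φ : Finset ((j : Fin m) × Fin (mult j)) → Fin m → ℕ :=
    fun H j => (H.filter fun p => p.1 = j).card with hφ
  have hsum : ∀ g : (Fin m → ℕ) → ℝ,
      (∑ H, Finsupp.single (φ H) (y H)).sum (fun c v => g c * v) = ∑ H, g (φ H) * y H := by
    intro g
    rw [← Finsupp.sum_finsetSum_index (fun _ => mul_zero _) fun _ _ _ => mul_add _ _ _]
    exact sum_congr rfl fun H _ => Finsupp.sum_single_index (mul_zero _)
  refine ⟨∑ H, Finsupp.single (φ H) (y H), ⟨fun c => ?_, fun c hc => ?_, fun j => ?_⟩, ?_⟩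
  · rw [Finsupp.finsetSum_apply]
    refine sum_nonneg fun H _ => ?_
    rw [Finsupp.single_apply]
    split_ifs
    · exact hy.1 H
    · exact le_rfl
  · rw [Finsupp.mem_support_iff, Finsupp.finsetSum_apply] at hc
    obtain ⟨H, -, h⟩ := exists_ne_zero_of_sum_ne_zero hc
    obtain ⟨rfl, h0⟩ := Finsupp.single_apply_ne_zero.1 h
    refine le_of_eq_of_le ?_ (hy.2.1 H h0)
    rw [← sum_fiberwise_of_maps_to (s := H) (t := univ) (g := fun p => p.1) fun _ _ => mem_univ _]
    refine sum_congr rfl fun j _ => ?_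
    rw [sum_congr rfl fun p hp => (by rw [(mem_filter.1 hp).2] : σ p.1 = σ j), sum_const,
      nsmul_eq_mul, mul_comm]
  · rw [hsum fun c => (c j : ℝ)]
    have hc : (univ.filter fun p : (j : Fin m) × Fin (mult j) => p.1 = j).card = mult j := by
      have : (univ.filter fun p : (j : Fin m) × Fin (mult j) => p.1 = j) =
          ({j} : Finset (Fin m)).sigma fun _ => univ := by
        ext p
        simp
      rw [this, card_sigma]
      simp
    calc (mult j : ℝ)
        = ∑ _p ∈ univ.filter fun p : (j : Fin m) × Fin (mult j) => p.1 = j, (1 : ℝ) := by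
          rw [sum_const, hc, nsmul_eq_mul, mul_one]
      _ ≤ ∑ p ∈ univ.filter fun p : (j : Fin m) × Fin (mult j) => p.1 = j,
            ∑ H : Finset ((j : Fin m) × Fin (mult j)), if p ∈ H then y H else 0 :=
          sum_le_sum fun p _ => by rw [← sum_filter]; exact hy.2.2 p
      _ = _ := by
          rw [sum_comm]
          refine sum_congr rfl fun H _ => ?_
          rw [← sum_filter, sum_const, nsmul_eq_mul]
          congr 3
          ext p
          simp [and_comm]
  · have := hsum fun _ => 1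
    simp only [one_mul] at this
    exact this

/-- enumeration of the distinct sizes -/
theorem types_enum {ι : Type} [Fintype ι] [DecidableEq ι] (a : ι → ℚ) :
    ∃ (m : ℕ) (σ : Fin m → ℚ) (mult : Fin m → ℕ) (e : ((j : Fin m) × Fin (mult j)) ≃ ι),
      Function.Injective σ ∧ (∀ j, 0 < mult j) ∧ ∀ p, a (e p) = σ p.1 := by
  set S := univ.image a with hS
  set f : ι → Fin S.card := fun i => S.equivFin ⟨a i, mem_image_of_mem a (mem_univ i)⟩ with hf
  refine ⟨S.card, fun j => (S.equivFin.symm j : ℚ), fun j => Fintype.card {i // f i = j},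
    (Equiv.sigmaCongrRight fun j => (Fintype.equivFin {i // f i = j}).symm).trans
      (Equiv.sigmaFiberEquiv f), ?_, fun j => ?_, fun p => ?_⟩
  · exact Subtype.val_injective.comp S.equivFin.symm.injective
  · obtain ⟨i, -, hi⟩ := mem_image.1 (S.equivFin.symm j).2
    refine Fintype.card_pos_iff.2 ⟨⟨i, ?_⟩⟩
    simp only [hf, hi]
    exact S.equivFin.apply_symm_apply j
  · obtain ⟨j, t⟩ := p
    have h := ((Fintype.equivFin {i // f i = j}).symm t).2
    have h2 := congrArg (fun k => (S.equivFin.symm k : ℚ)) h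
    simpa [hf] using h2

theorem gap_of_items {ι : Type} [Fintype ι] [DecidableEq ι] (a : ι → ℚ) (B c : ℕ)
    (hr : ∀ i, 1 / 6 < a i ∧ a i ≤ 1) (hB : (univ.filter fun i => 1 / 2 < a i).card = B)
    (hy : ∃ y, CopyLPFeasible a y ∧ copyLPCost y = B) (hn : ¬ PacksInto a (B + c)) :
    ∃ (m : ℕ) (σ : Fin m → ℚ) (mult : Fin m → ℕ) (B : ℕ),
      Function.Injective σ ∧ (∀ j, 0 < mult j) ∧ (∀ j, 1 / 6 < σ j ∧ σ j ≤ 1) ∧
      (∃ z, TypeLPFeasible σ mult z ∧ typeLPCost z = B) ∧
      (∀ z, TypeLPFeasible σ mult z → (B : ℝ) ≤ typeLPCost z) ∧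
      (∃ y : Finset ((j : Fin m) × Fin (mult j)) → ℝ,
        CopyLPFeasible (fun i => σ i.1) y ∧ copyLPCost y = B) ∧
      (∀ y : Finset ((j : Fin m) × Fin (mult j)) → ℝ,
        CopyLPFeasible (fun i => σ i.1) y → (B : ℝ) ≤ copyLPCost y) ∧
      ¬ PacksInto (fun i : (j : Fin m) × Fin (mult j) => σ i.1) (B + c) := by
  obtain ⟨m, σ, mult, e, hσ, hm, he⟩ := types_enum a
  obtain ⟨y, hy, hc⟩ := hy
  have hfun : (fun p => a (e p)) = fun p : (j : Fin m) × Fin (mult j) => σ p.1 := funext he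
  have hr' : ∀ j, 1 / 6 < σ j ∧ σ j ≤ 1 := fun j => by
    have := hr (e ⟨j, ⟨0, hm j⟩⟩)
    rwa [he] at this
  have h0 : ∀ j, 0 ≤ σ j := fun j => le_trans (by norm_num) (hr' j).1.le
  have hB' : (univ.filter fun p : (j : Fin m) × Fin (mult j) => 1 / 2 < σ p.1).card = B := by
    rw [← hB]
    refine card_equiv e fun p => ?_
    simp [he]
  have hB'' : ∑ j ∈ univ.filter (fun j => 1 / 2 < σ j), mult j = B := by
    have : (univ.filter fun p : (j : Fin m) × Fin (mult j) => 1 / 2 < σ p.1) =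
        (univ.filter fun j => 1 / 2 < σ j).sigma fun _ => univ := by
      ext p
      simp
    rw [← hB', this, card_sigma]
    simp
  obtain ⟨hy1, hy2⟩ := types_copy_equiv e hy
  rw [hfun] at hy1
  obtain ⟨z, hz1, hz2⟩ := types_type_of_copy hy1
  refine ⟨m, σ, mult, B, hσ, hm, hr', ⟨z, hz1, by rw [hz2, hy2, hc]⟩, fun z hz => ?_,
    ⟨_, hy1, by rw [hy2, hc]⟩, fun y hy => ?_, fun h => hn ?_⟩
  · rw [← hB'']
    exact types_type_lower h0 hz
  · rw [← hB']
    exact types_copy_lower (a := fun p : (j : Fin m) × Fin (mult j) => σ p.1) (fun p => h0 p.1) hy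
  · exact (packsInto_equiv e (fun p => (he p).symm) _).1 h

end Crest.Agent.R318
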