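/-
R318/Main: assembly.  Author: helper58.
-/
import Crest.Agent.R318.Basic
import Crest.Agent.R318.Tower
import Crest.Agent.R318.Model
import Crest.Agent.R318.ModelC
import Crest.Agent.R318.Types
import Crest.Agent.R318.Cook
import Crest.Agent.R318.Red
import Crest.Agent.R318.Plan
import Crest.Agent.R318.Sound

set_option autoImplicit false

namespace Crest.Agent.R318

open Finset Crest.BinPacking Crest.Agent.Lib.PolyTime Crest.Enc

/-- The formula `x ∧ ¬ x`. -/
def phi0 : CnfV ℕ := [((0, true), (0, true), (0, true)), ((0, false), (0, false), (0, false))]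

theorem bdd_phi0 : Bdd phi0 := by
  intro u hu
  have hu' : u < 6 := hu
  interval_cases u <;> decide

theorem not_sat_phi0 : ¬ Sat phi0 := by
  rintro ⟨α, h⟩
  obtain ⟨a, ha, h0⟩ := h 0 (by decide)
  obtain ⟨a', ha', h1⟩ := h 1 (by decide)
  have e0 : lit phi0 (3 * 0 + a) = (0, true) := by interval_cases a <;> decide
  have e1 : lit phi0 (3 * 1 + a') = (0, false) := by interval_cases a' <;> decide
  rw [e0] at h0
  rw [e1] at h1
  simp_all

theorem not_packs {c : ℕ} (W : Tower (TT c)) {φ : CnfV ℕ} (hb : Bdd φ) (hs : ¬ Sat φ) :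
    ¬ PacksInto (sz W φ) (Fintype.card (Idx c W.n φ) + c) := fun h => by
  obtain ⟨σ, hσ⟩ := model_sound (small W hb) h
  exact hs (sound W hb σ hσ)

theorem gap_main (c : ℕ) :
    ∃ (m : ℕ) (σ : Fin m → ℚ) (mult : Fin m → ℕ) (B : ℕ),
      Function.Injective σ ∧ (∀ j, 0 < mult j) ∧ (∀ j, 1 / 6 < σ j ∧ σ j ≤ 1) ∧
      (∃ z, TypeLPFeasible σ mult z ∧ typeLPCost z = B) ∧
      (∀ z, TypeLPFeasible σ mult z → (B : ℝ) ≤ typeLPCost z) ∧
      (∃ y : Finset ((j : Fin m) × Fin (mult j)) → ℝ,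
        CopyLPFeasible (fun i => σ i.1) y ∧ copyLPCost y = B) ∧
      (∀ y : Finset ((j : Fin m) × Fin (mult j)) → ℝ,
        CopyLPFeasible (fun i => σ i.1) y → (B : ℝ) ≤ copyLPCost y) ∧
      ¬ PacksInto (fun i : (j : Fin m) × Fin (mult j) => σ i.1) (B + c) := by
  obtain ⟨W⟩ := exists_tower (TT c)
  obtain ⟨σ₁, σ₂, h⟩ := plan_two W bdd_phi0
  exact gap_of_items (sz W phi0) (Fintype.card (Idx c W.n phi0)) c
    (msz_range (small W bdd_phi0)) (msz_big (small W bdd_phi0))
    (model_lp (small W bdd_phi0) σ₁ σ₂ h) (not_packs W bdd_phi0 not_sat_phi0)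

theorem hard_main (c : ℕ) (A : Set (List Bool)) (hA : Crest.Complexity.InNP A) :
    ∃ f : List Bool → List Bool, Crest.Complexity.PolyTime f ∧
      ∀ x : List Bool, ∃ (sizes : List ℚ) (B : ℕ),
        f x = natCode sizes.length ++ (sizes.map ratCode).flatten ++ natCode B ∧
        (∀ a ∈ sizes, 1 / 6 < a ∧ a ≤ 1) ∧
        (x ∈ A → PacksInto (fun i : Fin sizes.length => sizes.get i) B) ∧
        (x ∉ A → ¬ PacksInto (fun i : Fin sizes.length => sizes.get i) (B + c)) := by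
  obtain ⟨W⟩ := exists_tower (TT c)
  obtain ⟨F, hF, hF'⟩ := cook_tab hA
  obtain ⟨G, hG, hG'⟩ := exists_rename
  obtain ⟨R, hR, hR'⟩ := exists_red W
  have hS : PT fun x => R (G (F x)) := hR.comp (hG.comp hF)
  refine ⟨fun x => natCode (R (G (F x))).1.length ++ ((R (G (F x))).1.map ratCode).flatten ++
    natCode (R (G (F x))).2, PT.polyTime (by fun_prop), fun x => ?_⟩
  obtain ⟨hb, hs⟩ := hG' (F x)
  obtain ⟨hB, e, he⟩ := hR' (G (F x)) hb
  refine ⟨_, _, rfl, fun a ha => ?_, fun hx => ?_, fun hx => ?_⟩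
  · obtain ⟨i, rfl⟩ := List.get_of_mem ha
    rw [he]
    exact msz_range (small W hb) _
  · obtain ⟨σ, hσ⟩ := plan_sat W hb (hs.1 ((hF' x).1 hx))
    rw [packsInto_equiv e he, hB]
    exact model_pack (small W hb) σ hσ
  · rw [packsInto_equiv e he, hB]
    exact not_packs W hb fun h => hx ((hF' x).2 (hs.2 h))

end Crest.Agent.R318
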